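import Mathlib

/-! P060: a perfect matching without conflicts, by derandomised switching. -/

namespace Vale.Agent.P060

open Finset

noncomputable section

open Classical in
/-- number of common neighbours -/
def cod {V : Type} [Fintype V] (H : SimpleGraph V) (a b : V) : ℕ :=
  (univ.filter fun y => H.Adj a y ∧ H.Adj b y).card

/-- admissible pair -/
def Okp {V : Type} [Fintype V] (H : SimpleGraph V) (F : Finset V) (C1 : ℝ) (a b : V) : Prop :=
  a ≠ b ∧ ¬ H.Adj a b ∧ (cod H a b : ℝ) ≤ C1 ∧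
    ∀ u ∈ F, u ≠ a ∧ u ≠ b ∧ ¬ (H.Adj u a ∧ H.Adj u b)

/-- conflict of two pairs -/
def Cf {V : Type} (H : SimpleGraph V) (a b x y : V) : Prop :=
  H.Adj a x ∧ H.Adj a y ∧ H.Adj b x ∧ H.Adj b y

open Classical in
/-- matched neighbours of `x` whose partner is a neighbour of `x` -/
def cxs {V : Type} [Fintype V] (H : SimpleGraph V) (σ : V → V) (x : V) : Finset V :=
  univ.filter fun w => H.Adj x w ∧ σ w ≠ w ∧ H.Adj x (σ w)

open Classical in
/-- matched neighbours of `x` -/
def sxs {V : Type} [Fintype V] (H : SimpleGraph V) (σ : V → V) (x : V) : Finset V :=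
  univ.filter fun w => H.Adj x w ∧ σ w ≠ w

open Classical in
/-- matched vertices -/
def mts {V : Type} [Fintype V] (σ : V → V) : Finset V := univ.filter fun w => σ w ≠ w

structure Inv {V : Type} [Fintype V] (H : SimpleGraph V) (F : Finset V) (C1 q : ℝ)
    (σ : V → V) : Prop where
  inv : ∀ x, σ (σ x) = x
  ok : ∀ x, σ x ≠ x → Okp H F C1 x (σ x)
  cf : ∀ x y, σ x ≠ x → σ y ≠ y → x ≠ y → x ≠ σ y → ¬ Cf H x (σ x) y (σ y)
  pot : ∑ x, Real.exp (((cxs H σ x).card : ℝ) / 2 - q * (sxs H σ x).card) ≤ Fintype.card V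

variable {V : Type} [Fintype V] {H : SimpleGraph V}

theorem Okp.symm {F : Finset V} {C1 : ℝ} {a b : V} (h : Okp H F C1 a b) : Okp H F C1 b a := by
  obtain ⟨h1, h2, h3, h4⟩ := h
  refine ⟨h1.symm, fun h => h2 h.symm, ?_, fun u hu => ?_⟩
  · have : cod H b a = cod H a b := by
      unfold cod; congr 1; ext y; simp [and_comm]
    rw [this]; exact h3
  · obtain ⟨a1, a2, a3⟩ := h4 u hu
    exact ⟨a2, a1, fun h => a3 ⟨h.2, h.1⟩⟩

open Classical in
/-- the switch -/
def upd (σ : V → V) (v v' z : V) (x : V) : V :=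
  if x = v then z else if x = z then v else if x = v' then σ z else if x = σ z then v' else σ x

/-- hypotheses of a switch -/
structure Sw (H : SimpleGraph V) (F : Finset V) (C1 : ℝ) (σ : V → V) (v v' z : V) : Prop where
  inv : ∀ x, σ (σ x) = x
  hv : σ v = v
  hv' : σ v' = v'
  zv : z ≠ v
  alt : (σ z ≠ z ∧ v ≠ v') ∨ (σ z = z ∧ v' = v)
  ok1 : Okp H F C1 v z
  ok2 : Okp H F C1 v' (σ z)
  nc1 : ∀ y, σ y ≠ y → ¬ Cf H v z y (σ y)
  nc2 : ∀ y, σ y ≠ y → ¬ Cf H v' (σ z) y (σ y)

theorem Sw.facts {F : Finset V} {C1 : ℝ} {σ : V → V} {v v' z : V} (h : Sw H F C1 σ v v' z) :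
    σ z ≠ v ∧ (v ≠ v' → z ≠ v' ∧ σ z ≠ v') := by
  have h1 : σ z ≠ v := by
    intro e
    have := h.inv z
    rw [e, h.hv] at this
    exact h.zv this.symm
  refine ⟨h1, fun hne => ?_⟩
  rcases h.alt with ⟨a1, _⟩ | ⟨_, a2⟩
  · have h2 : z ≠ v' := by
      rintro rfl
      exact a1 h.hv'
    refine ⟨h2, fun e => ?_⟩
    have := h.inv z
    rw [e, h.hv'] at this
    exact h2 this.symm
  · exact absurd a2.symm hne

/-- the pairs of the new matching -/
theorem upd_cases {F : Finset V} {C1 : ℝ} {σ : V → V} {v v' z : V} (_h : Sw H F C1 σ v v' z)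
    (x : V) : (x = v ∧ upd σ v v' z x = z) ∨ (x = z ∧ upd σ v v' z x = v) ∨
      (x = v' ∧ upd σ v v' z x = σ z) ∨ (x = σ z ∧ upd σ v v' z x = v') ∨
      (x ≠ v ∧ x ≠ z ∧ x ≠ v' ∧ x ≠ σ z ∧ upd σ v v' z x = σ x) := by
  unfold upd
  by_cases h1 : x = v
  · left; exact ⟨h1, by rw [if_pos h1]⟩
  by_cases h2 : x = z
  · right; left; exact ⟨h2, by rw [if_neg h1, if_pos h2]⟩
  by_cases h3 : x = v'
  · right; right; left; exact ⟨h3, by rw [if_neg h1, if_neg h2, if_pos h3]⟩
  by_cases h4 : x = σ z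
  · right; right; right; left
    exact ⟨h4, by rw [if_neg h1, if_neg h2, if_neg h3, if_pos h4]⟩
  right; right; right; right
  exact ⟨h1, h2, h3, h4, by rw [if_neg h1, if_neg h2, if_neg h3, if_neg h4]⟩

theorem upd_v (σ : V → V) (v v' z : V) : upd σ v v' z v = z := by unfold upd; simp

theorem upd_z (σ : V → V) {v v' z : V} (h : z ≠ v) : upd σ v v' z z = v := by
  unfold upd; rw [if_neg h, if_pos rfl]

theorem upd_inv {F : Finset V} {C1 : ℝ} {σ : V → V} {v v' z : V} (h : Sw H F C1 σ v v' z)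
    (x : V) : upd σ v v' z (upd σ v v' z x) = x := by
  obtain ⟨f1, f2⟩ := h.facts
  have zv := h.zv
  have hv := h.hv
  have hv' := h.hv'
  rcases upd_cases h x with ⟨e1, e2⟩ | ⟨e1, e2⟩ | ⟨e1, e2⟩ | ⟨e1, e2⟩ | ⟨e1, e3, e4, e5, e2⟩
  · rw [e2, upd_z σ zv, e1]
  · rw [e2, upd_v, e1]
  · rw [e2, e1]
    by_cases hvv : v = v'
    · rcases h.alt with ⟨_, a2⟩ | ⟨a1, a2⟩
      · exact absurd hvv a2
      · rw [a1, upd_z σ zv, ← hvv]
    · obtain ⟨g1, g2⟩ := f2 hvv
      rcases h.alt with ⟨a1, _⟩ | ⟨_, a2⟩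
      · unfold upd
        rw [if_neg f1, if_neg a1, if_neg g2, if_pos rfl]
      · exact absurd a2.symm hvv
  · rw [e2, e1]
    by_cases hvv : v = v'
    · rcases h.alt with ⟨_, a2⟩ | ⟨a1, a2⟩
      · exact absurd hvv a2
      · rw [← hvv, upd_v, a1]
    · obtain ⟨g1, g2⟩ := f2 hvv
      unfold upd
      rw [if_neg (Ne.symm hvv), if_neg (Ne.symm g1), if_pos rfl]
  · rw [e2]
    have g1 : σ x ≠ v := by
      intro e; have := h.inv x; rw [e, hv] at this; exact e1 this.symm
    have g2 : σ x ≠ z := by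
      intro e; have := h.inv x; rw [e] at this; exact e5 this.symm
    have g3 : σ x ≠ v' := by
      intro e; have := h.inv x; rw [e, hv'] at this; exact e4 this.symm
    have g4 : σ x ≠ σ z := by
      intro e; have := congrArg σ e; rw [h.inv, h.inv] at this; exact e3 this
    unfold upd
    rw [if_neg g1, if_neg g2, if_neg g3, if_neg g4, h.inv]

theorem upd_ok {F : Finset V} {C1 : ℝ} {σ : V → V} {v v' z : V} (h : Sw H F C1 σ v v' z)
    (hok : ∀ x, σ x ≠ x → Okp H F C1 x (σ x)) (x : V) (hx : upd σ v v' z x ≠ x) :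
    Okp H F C1 x (upd σ v v' z x) := by
  rcases upd_cases h x with ⟨e1, e2⟩ | ⟨e1, e2⟩ | ⟨e1, e2⟩ | ⟨e1, e2⟩ | ⟨e1, e3, e4, e5, e2⟩
  · rw [e2, e1]; exact h.ok1
  · rw [e2, e1]; exact h.ok1.symm
  · rw [e2, e1]; exact h.ok2
  · rw [e2, e1]; exact h.ok2.symm
  · rw [e2] at hx ⊢; exact hok x hx

theorem upd_cf {F : Finset V} {C1 : ℝ} {σ : V → V} {v v' z : V} (h : Sw H F C1 σ v v' z)
    (hok : ∀ x, σ x ≠ x → Okp H F C1 x (σ x))
    (hcf : ∀ x y, σ x ≠ x → σ y ≠ y → x ≠ y → x ≠ σ y → ¬ Cf H x (σ x) y (σ y))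
    (x y : V) (hx : upd σ v v' z x ≠ x) (hy : upd σ v v' z y ≠ y) (hxy : x ≠ y)
    (hxy' : x ≠ upd σ v v' z y) : ¬ Cf H x (upd σ v v' z x) y (upd σ v v' z y) := by
  have hzz : (σ z ≠ z ∧ v ≠ v' ∧ ¬ H.Adj z (σ z)) ∨ (σ z = z ∧ v' = v) := by
    rcases h.alt with ⟨a1, a2⟩ | a
    · exact Or.inl ⟨a1, a2, (hok z a1).2.1⟩
    · exact Or.inr a
  have n1 := h.nc1
  have n2 := h.nc2
  rcases upd_cases h x with ⟨e1, e2⟩ | ⟨e1, e2⟩ | ⟨e1, e2⟩ | ⟨e1, e2⟩ | ⟨e1, e3, e4, e5, e2⟩ <;>
  rcases upd_cases h y with ⟨k1, k2⟩ | ⟨k1, k2⟩ | ⟨k1, k2⟩ | ⟨k1, k2⟩ | ⟨k1, k3, k4, k5, k2⟩ <;>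
  rw [e2] at hx ⊢ <;> rw [k2] at hy hxy' ⊢ <;>
  rintro ⟨c1, c2, c3, c4⟩
  all_goals try rw [e1] at c1 c2
  all_goals try rw [k1] at c1 c3
  all_goals first
    | exact hxy (e1.trans k1.symm)
    | exact hxy' e1
    | exact hcf x y hx hy hxy hxy' ⟨c1, c2, c3, c4⟩
    | exact n1 y hy ⟨c1, c2, c3, c4⟩
    | exact n1 y hy ⟨c3, c4, c1, c2⟩
    | exact n2 y hy ⟨c1, c2, c3, c4⟩
    | exact n2 y hy ⟨c3, c4, c1, c2⟩
    | exact n1 x hx ⟨c1.symm, c3.symm, c2.symm, c4.symm⟩
    | exact n1 x hx ⟨c2.symm, c4.symm, c1.symm, c3.symm⟩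
    | exact n2 x hx ⟨c1.symm, c3.symm, c2.symm, c4.symm⟩
    | exact n2 x hx ⟨c2.symm, c4.symm, c1.symm, c3.symm⟩
    | (rcases hzz with ⟨g1, g2, g3⟩ | ⟨g1, g2⟩
       · first
         | exact g3 c1
         | exact g3 c2
         | exact g3 c3
         | exact g3 c4
         | exact g3 c1.symm
         | exact g3 c2.symm
         | exact g3 c3.symm
         | exact g3 c4.symm
       · first
         | (apply hxy; rw [e1, k1, g2]; done)
         | (apply hxy; rw [e1, k1, g1]; done)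
         | (apply hxy'; rw [e1, g2]; done)
         | (apply hxy'; rw [e1, g1]; done)
         | (apply hxy'; rw [e1]; exact g1.symm)
         | (apply hxy'; rw [e1]; exact g2.symm))

theorem upd_matched {F : Finset V} {C1 : ℝ} {σ : V → V} {v v' z : V}
    (h : Sw H F C1 σ v v' z) {w : V} (hw : σ w ≠ w ∨ w = v ∨ w = v') : upd σ v v' z w ≠ w := by
  obtain ⟨f1, f2⟩ := h.facts
  rcases upd_cases h w with ⟨e1, e2⟩ | ⟨e1, e2⟩ | ⟨e1, e2⟩ | ⟨e1, e2⟩ | ⟨e1, e3, e4, e5, e2⟩
  · rw [e2, e1]; exact h.zv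
  · rw [e2, e1]; exact h.zv.symm
  · rw [e2, e1]
    rcases h.alt with ⟨a1, a2⟩ | ⟨a1, a2⟩
    · exact (f2 a2).2
    · rw [a1, a2]; exact h.zv
  · rw [e2, e1]
    rcases h.alt with ⟨a1, a2⟩ | ⟨a1, a2⟩
    · exact (f2 a2).2.symm
    · rw [a1, a2]; exact h.zv.symm
  · rw [e2]
    rcases hw with hw | hw | hw
    · exact hw
    · exact absurd hw e1
    · exact absurd hw e4

open Classical in
theorem upd_sxs {F : Finset V} {C1 : ℝ} {σ : V → V} {v v' z : V} (h : Sw H F C1 σ v v' z)
    (x : V) : (sxs H σ x).card + (if H.Adj x v ∨ H.Adj x v' then 1 else 0) ≤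
      (sxs H (upd σ v v' z) x).card := by
  have hsub : sxs H σ x ⊆ sxs H (upd σ v v' z) x := by
    intro w hw
    unfold sxs at hw ⊢
    rw [mem_filter] at hw ⊢
    exact ⟨mem_univ _, hw.2.1, upd_matched h (Or.inl hw.2.2)⟩
  split_ifs with hc
  · have key : ∀ a, σ a = a → (a = v ∨ a = v') → H.Adj x a →
        (sxs H σ x).card + 1 ≤ (sxs H (upd σ v v' z) x).card := by
      intro a ha ha' hxa
      have h1 : a ∉ sxs H σ x := by
        unfold sxs; rw [mem_filter]; exact fun h => h.2.2 ha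
      have h2 : a ∈ sxs H (upd σ v v' z) x := by
        unfold sxs; rw [mem_filter]
        exact ⟨mem_univ _, hxa, upd_matched h (Or.inr ha')⟩
      have h3 : insert a (sxs H σ x) ⊆ sxs H (upd σ v v' z) x := insert_subset h2 hsub
      have := card_le_card h3
      rwa [card_insert_of_notMem h1] at this
    rcases hc with hc | hc
    · exact key v h.hv (Or.inl rfl) hc
    · exact key v' h.hv' (Or.inr rfl) hc
  · exact card_le_card hsub

open Classical in
theorem upd_cxs {F : Finset V} {C1 : ℝ} {σ : V → V} {v v' z : V} (h : Sw H F C1 σ v v' z)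
    (x : V) : (cxs H (upd σ v v' z) x).card ≤ (cxs H σ x).card +
      (if H.Adj x v ∧ H.Adj x z then 2 else 0) + (if H.Adj x v' ∧ H.Adj x (σ z) then 2 else 0) := by
  have hsub : cxs H (upd σ v v' z) x ⊆ (cxs H σ x ∪
      (if H.Adj x v ∧ H.Adj x z then {v, z} else ∅)) ∪
      (if H.Adj x v' ∧ H.Adj x (σ z) then {v', σ z} else ∅) := by
    intro w hw
    unfold cxs at hw
    rw [mem_filter] at hw
    obtain ⟨_, w1, w2, w3⟩ := hw
    rw [mem_union, mem_union]
    rcases upd_cases h w with ⟨e1, e2⟩ | ⟨e1, e2⟩ | ⟨e1, e2⟩ | ⟨e1, e2⟩ | ⟨e1, e3, e4, e5, e2⟩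
    · left; right
      rw [e2] at w3; rw [e1] at w1
      rw [if_pos ⟨w1, w3⟩, e1]; simp
    · left; right
      rw [e2] at w3; rw [e1] at w1
      rw [if_pos ⟨w3, w1⟩, e1]; simp
    · right
      rw [e2] at w3; rw [e1] at w1
      rw [if_pos ⟨w1, w3⟩, e1]; simp
    · right
      rw [e2] at w3; rw [e1] at w1
      rw [if_pos ⟨w3, w1⟩, e1]; simp
    · left; left
      unfold cxs
      rw [mem_filter]
      rw [e2] at w2 w3
      exact ⟨mem_univ _, w1, w2, w3⟩
  refine (card_le_card hsub).trans ((card_union_le _ _).trans ?_)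
  refine add_le_add ((card_union_le _ _).trans (add_le_add le_rfl ?_)) ?_
  · split_ifs
    · exact card_le_two
    · simp
  · split_ifs
    · exact card_le_two
    · simp

theorem upd_mts {F : Finset V} {C1 : ℝ} {σ : V → V} {v v' z : V} (h : Sw H F C1 σ v v' z) :
    (mts σ).card < (mts (upd σ v v' z)).card := by
  classical
  refine card_lt_card ?_
  rw [ssubset_iff_of_subset]
  · refine ⟨v, ?_, ?_⟩
    · unfold mts; rw [mem_filter]
      exact ⟨mem_univ _, upd_matched h (Or.inr (Or.inl rfl))⟩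
    · unfold mts; rw [mem_filter]
      exact fun h' => h'.2 h.hv
  · intro w hw
    unfold mts at hw ⊢
    rw [mem_filter] at hw ⊢
    exact ⟨mem_univ _, upd_matched h (Or.inl hw.2)⟩

/-! ### bad partners -/

open Classical in
/-- bad partners of `v` -/
def bad (H : SimpleGraph V) (F : Finset V) (C1 : ℝ) (σ : V → V) (v : V) : Finset V :=
  univ.filter fun z => H.Adj v z ∨ C1 < (cod H v z : ℝ) ∨
    (∃ w, H.Adj v w ∧ σ w ≠ w ∧ H.Adj v (σ w) ∧ H.Adj z w ∧ H.Adj z (σ w)) ∨ z = v ∨ z ∈ F ∨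
    ∃ u ∈ F, H.Adj u v ∧ H.Adj u z

theorem not_bad {F : Finset V} {C1 : ℝ} {σ : V → V} {v z : V} (hv : v ∉ F)
    (h : z ∉ bad H F C1 σ v) :
    Okp H F C1 v z ∧ ∀ y, σ y ≠ y → ¬ Cf H v z y (σ y) := by
  classical
  unfold bad at h
  rw [mem_filter] at h
  push Not at h
  obtain ⟨h1, h2, h3, h4, h5, h6⟩ := h (mem_univ _)
  refine ⟨⟨Ne.symm h4, h1, h2, fun u hu => ⟨?_, ?_, ?_⟩⟩, ?_⟩
  · rintro rfl; exact hv hu
  · rintro rfl; exact h5 hu
  · rintro ⟨a, b⟩; exact h6 u hu a b
  · rintro y hy ⟨c1, c2, c3, c4⟩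
    exact h3 y c1 hy c2 c3 c4

open Classical in
theorem sum_cod_le {D : ℝ} (hD : ∀ v, ((univ.filter fun w => H.Adj v w).card : ℝ) ≤ D) (v : V) :
    ∑ z, (cod H v z : ℝ) ≤ D * D := by
  have h1 : ∑ z, (cod H v z : ℝ) =
      ∑ y ∈ univ.filter (fun w => H.Adj v w), ((univ.filter fun w => H.Adj y w).card : ℝ) := by
    have e : ∀ z, (cod H v z : ℝ) =
        ∑ y ∈ univ.filter (fun w => H.Adj v w), (if H.Adj y z then (1:ℝ) else 0) := by
      intro z
      unfold cod
      rw [← sum_filter, filter_filter, sum_const, nsmul_eq_mul, mul_one]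
      congr 2
      ext y
      simp [H.adj_comm z y]
    simp_rw [e]
    rw [sum_comm]
    refine sum_congr rfl fun y _ => ?_
    rw [← sum_filter, sum_const, nsmul_eq_mul, mul_one]
  rw [h1]
  have hD0 : 0 ≤ D := le_trans (Nat.cast_nonneg _) (hD v)
  calc ∑ y ∈ univ.filter (fun w => H.Adj v w), ((univ.filter fun w => H.Adj y w).card : ℝ)
      ≤ ∑ y ∈ univ.filter (fun w => H.Adj v w), D := sum_le_sum fun y _ => hD y
    _ = ((univ.filter fun w => H.Adj v w).card : ℝ) * D := by rw [sum_const, nsmul_eq_mul]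
    _ ≤ D * D := mul_le_mul_of_nonneg_right (hD v) hD0

open Classical in
theorem bad_card {F : Finset V} (hF : F.card ≤ 1) {D C1 : ℝ} (hC1 : 0 < C1)
    (hD : ∀ v, ((univ.filter fun w => H.Adj v w).card : ℝ) ≤ D) {σ : V → V}
    (hok : ∀ x, σ x ≠ x → Okp H F C1 x (σ x)) (v : V) :
    ((bad H F C1 σ v).card : ℝ) ≤ 2 * D + D ^ 2 / C1 + (cxs H σ v).card * C1 + 2 := by
  have hD0 : 0 ≤ D := le_trans (Nat.cast_nonneg _) (hD v)
  set B1 := univ.filter (fun w => H.Adj v w) with hB1
  set B2 := univ.filter (fun z => C1 < (cod H v z : ℝ)) with hB2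
  set B3 := (cxs H σ v).biUnion (fun w => univ.filter fun z => H.Adj w z ∧ H.Adj (σ w) z) with hB3
  set B6 := F.biUnion (fun u => univ.filter fun z => H.Adj u z) with hB6
  have hsub : bad H F C1 σ v ⊆ ((((B1 ∪ B2) ∪ B3) ∪ {v}) ∪ F) ∪ B6 := by
    intro z hz
    unfold bad at hz
    rw [mem_filter] at hz
    simp only [mem_union]
    rcases hz.2 with h | h | ⟨w, h1, h2, h3, h4, h5⟩ | h | h | ⟨u, hu, _, h2⟩
    · left; left; left; left; left; rw [hB1, mem_filter]; exact ⟨mem_univ _, h⟩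
    · left; left; left; left; right; rw [hB2, mem_filter]; exact ⟨mem_univ _, h⟩
    · left; left; left; right
      rw [hB3, mem_biUnion]
      refine ⟨w, ?_, ?_⟩
      · unfold cxs; rw [mem_filter]; exact ⟨mem_univ _, h1, h2, h3⟩
      · rw [mem_filter]; exact ⟨mem_univ _, h4.symm, h5.symm⟩
    · left; left; right; rw [mem_singleton]; exact h
    · left; right; exact h
    · right
      rw [hB6, mem_biUnion]
      exact ⟨u, hu, by rw [mem_filter]; exact ⟨mem_univ _, h2⟩⟩
  have hc : (bad H F C1 σ v).card ≤ B1.card + B2.card + B3.card + 1 + F.card + B6.card := by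
    refine (card_le_card hsub).trans ((card_union_le _ _).trans (Nat.add_le_add_right ?_ _))
    refine (card_union_le _ _).trans (Nat.add_le_add_right ?_ _)
    refine (card_union_le _ _).trans ?_
    rw [card_singleton]
    refine Nat.add_le_add_right ?_ _
    refine (card_union_le _ _).trans (Nat.add_le_add_right ?_ _)
    exact card_union_le _ _
  have h1 : (B1.card : ℝ) ≤ D := hD v
  have h2 : (B2.card : ℝ) ≤ D ^ 2 / C1 := by
    rw [le_div_iff₀ hC1, sq]
    refine le_trans ?_ (sum_cod_le hD v)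
    calc (B2.card : ℝ) * C1 = ∑ z ∈ B2, C1 := by rw [sum_const, nsmul_eq_mul]
      _ ≤ ∑ z ∈ B2, (cod H v z : ℝ) := sum_le_sum fun z hz => by
          rw [hB2, mem_filter] at hz; exact hz.2.le
      _ ≤ ∑ z, (cod H v z : ℝ) :=
          sum_le_sum_of_subset_of_nonneg (subset_univ _) fun _ _ _ => Nat.cast_nonneg _
  have h3 : (B3.card : ℝ) ≤ (cxs H σ v).card * C1 := by
    have h4 : (B3.card : ℝ) ≤ ∑ w ∈ cxs H σ v, (cod H w (σ w) : ℝ) := by
      have : B3.card ≤ ∑ w ∈ cxs H σ v, cod H w (σ w) := card_biUnion_le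
      exact_mod_cast this
    refine h4.trans ?_
    rw [← nsmul_eq_mul, ← sum_const]
    refine sum_le_sum fun w hw => ?_
    unfold cxs at hw
    rw [mem_filter] at hw
    exact (hok w hw.2.2.1).2.2.1
  have h6 : (B6.card : ℝ) ≤ D := by
    have h4 : (B6.card : ℝ) ≤ ∑ u ∈ F, ((univ.filter fun z => H.Adj u z).card : ℝ) := by
      have : B6.card ≤ ∑ u ∈ F, (univ.filter fun z => H.Adj u z).card := card_biUnion_le
      exact_mod_cast this
    refine h4.trans ((sum_le_sum fun u _ => hD u).trans ?_)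
    rw [sum_const, nsmul_eq_mul]
    have : (F.card : ℝ) ≤ 1 := by exact_mod_cast hF
    nlinarith
  have h5 : (F.card : ℝ) ≤ 1 := by exact_mod_cast hF
  have hc' : ((bad H F C1 σ v).card : ℝ) ≤ B1.card + B2.card + B3.card + 1 + F.card + B6.card := by
    exact_mod_cast hc
  linarith

theorem exp_two_ind (A B : Prop) [Decidable A] [Decidable B] :
    Real.exp ((if A then 1 else 0) + (if B then 1 else 0)) ≤
      1 + 4 * (if A then 1 else 0) + 4 * (if B then 1 else 0) := by
  have he : Real.exp 1 ≤ 3 := by have := Real.exp_one_lt_d9; linarith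
  have he0 := Real.exp_pos 1
  split_ifs
  · rw [Real.exp_add]; nlinarith
  · rw [add_zero]; linarith
  · rw [zero_add]; linarith
  · simp

open Classical in
theorem step_of_Z {F : Finset V} {D C1 q : ℝ}
    (hD : ∀ v, ((univ.filter fun w => H.Adj v w).card : ℝ) ≤ D) {σ : V → V}
    (hI : Inv H F C1 q σ) (hm : 0 < (Fintype.card V : ℝ)) (hq : q = 40 * D / Fintype.card V)
    (v v' : V) (Z : Finset V) (hZ : ∀ z ∈ Z, Sw H F C1 σ v v' z)
    (hZc : (Fintype.card V : ℝ) / 5 ≤ Z.card) :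
    ∃ σ', Inv H F C1 q σ' ∧ (mts σ).card < (mts σ').card := by
  have hD0 : 0 ≤ D := le_trans (Nat.cast_nonneg _) (hD v)
  have hq0 : 0 ≤ q := by rw [hq]; positivity
  have hZ0 : 0 < (Z.card : ℝ) := lt_of_lt_of_le (by positivity) hZc
  have hZne : Z.Nonempty := by
    rw [← card_pos]; exact_mod_cast hZ0
  have hx : ∀ x, ∑ z ∈ Z, Real.exp (((cxs H (upd σ v v' z) x).card : ℝ) / 2 -
      q * (sxs H (upd σ v v' z) x).card) ≤
      ∑ z ∈ Z, Real.exp (((cxs H σ x).card : ℝ) / 2 - q * (sxs H σ x).card) := by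
    intro x
    set e0 := ((cxs H σ x).card : ℝ) / 2 - q * (sxs H σ x).card with he0
    by_cases hc : H.Adj x v ∨ H.Adj x v'
    · have h1 : ∀ z ∈ Z, Real.exp (((cxs H (upd σ v v' z) x).card : ℝ) / 2 -
          q * (sxs H (upd σ v v' z) x).card) ≤ Real.exp e0 * Real.exp (-q) *
          (1 + 4 * (if H.Adj x z then 1 else 0) + 4 * (if H.Adj x (σ z) then 1 else 0)) := by
        intro z hz
        have a1 := upd_sxs (hZ z hz) x
        have a2 := upd_cxs (hZ z hz) x
        rw [if_pos hc] at a1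
        have a3 : ((sxs H σ x).card : ℝ) + 1 ≤ (sxs H (upd σ v v' z) x).card := by
          exact_mod_cast a1
        have a4 : ((cxs H (upd σ v v' z) x).card : ℝ) ≤ (cxs H σ x).card +
            2 * (if H.Adj x z then 1 else 0) + 2 * (if H.Adj x (σ z) then 1 else 0) := by
          have a5 : (if H.Adj x v ∧ H.Adj x z then 2 else 0 : ℕ) ≤
              2 * (if H.Adj x z then 1 else 0) := by
            by_cases h : H.Adj x z
            · rw [if_pos h]; split_ifs <;> norm_num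
            · rw [if_neg (fun h' => h h'.2)]; exact Nat.zero_le _
          have a6 : (if H.Adj x v' ∧ H.Adj x (σ z) then 2 else 0 : ℕ) ≤
              2 * (if H.Adj x (σ z) then 1 else 0) := by
            by_cases h : H.Adj x (σ z)
            · rw [if_pos h]; split_ifs <;> norm_num
            · rw [if_neg (fun h' => h h'.2)]; exact Nat.zero_le _
          have a7 : (cxs H (upd σ v v' z) x).card ≤ (cxs H σ x).card +
            2 * (if H.Adj x z then 1 else 0) + 2 * (if H.Adj x (σ z) then 1 else 0) := by omega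
          exact_mod_cast a7
        have a8 := exp_two_ind (H.Adj x z) (H.Adj x (σ z))
        rw [← Real.exp_add]
        calc Real.exp (((cxs H (upd σ v v' z) x).card : ℝ) / 2 -
              q * (sxs H (upd σ v v' z) x).card) ≤
              Real.exp ((e0 + -q) + ((if H.Adj x z then 1 else 0) +
                (if H.Adj x (σ z) then 1 else 0))) := by
              refine Real.exp_le_exp.2 ?_
              have a9 := mul_le_mul_of_nonneg_left a3 hq0
              rw [he0]
              linarith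
          _ = Real.exp (e0 + -q) * Real.exp ((if H.Adj x z then 1 else 0) +
                (if H.Adj x (σ z) then 1 else 0)) := Real.exp_add _ _
          _ ≤ _ := mul_le_mul_of_nonneg_left a8 (Real.exp_pos _).le
      refine (sum_le_sum h1).trans ?_
      rw [← mul_sum, sum_add_distrib, sum_add_distrib, ← mul_sum, ← mul_sum, sum_const, sum_const,
        nsmul_eq_mul, nsmul_eq_mul, mul_one]
      have b1 : ∑ z ∈ Z, (if H.Adj x z then (1:ℝ) else 0) ≤ D := by
        refine le_trans ?_ (hD x)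
        rw [← sum_filter, sum_const, nsmul_eq_mul, mul_one]
        exact_mod_cast card_le_card (filter_subset_filter _ (subset_univ Z))
      have b2 : ∑ z ∈ Z, (if H.Adj x (σ z) then (1:ℝ) else 0) ≤ D := by
        refine le_trans ?_ (hD x)
        rw [← sum_filter, sum_const, nsmul_eq_mul, mul_one]
        have : (Z.filter fun z => H.Adj x (σ z)).card ≤ (univ.filter fun w => H.Adj x w).card := by
          refine card_le_card_of_injOn σ ?_ ?_
          · intro z hz
            rw [mem_coe, mem_filter] at hz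
            rw [mem_coe, mem_filter]
            exact ⟨mem_univ _, hz.2⟩
          · intro a _ b _ hab
            have := congrArg σ hab
            rwa [hI.inv, hI.inv] at this
        exact_mod_cast this
      have b3 : (Z.card : ℝ) + 8 * D ≤ Z.card * Real.exp q := by
        have b4 := Real.add_one_le_exp q
        have b5 : 8 * D ≤ Z.card * q := by
          rw [hq]
          have : (Fintype.card V : ℝ) / 5 * (40 * D / Fintype.card V) = 8 * D := by
            field_simp; ring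
          rw [← this]
          exact mul_le_mul_of_nonneg_right hZc (by positivity)
        nlinarith
      have b6 : Real.exp (-q) * Real.exp q = 1 := by rw [← Real.exp_add]; simp
      have b7 := Real.exp_pos e0
      have b8 := Real.exp_pos (-q)
      calc Real.exp e0 * Real.exp (-q) * ((Z.card : ℝ) +
            4 * ∑ z ∈ Z, (if H.Adj x z then (1:ℝ) else 0) +
            4 * ∑ z ∈ Z, (if H.Adj x (σ z) then (1:ℝ) else 0))
          ≤ Real.exp e0 * Real.exp (-q) * (Z.card * Real.exp q) := by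
            refine mul_le_mul_of_nonneg_left ?_ (by positivity)
            linarith
        _ = Z.card * Real.exp e0 * (Real.exp (-q) * Real.exp q) := by ring
        _ = Z.card * Real.exp e0 := by rw [b6, mul_one]
    · refine sum_le_sum fun z hz => Real.exp_le_exp.2 ?_
      have a1 := upd_sxs (hZ z hz) x
      have a2 := upd_cxs (hZ z hz) x
      rw [if_neg hc] at a1
      rw [if_neg (fun h => hc (Or.inl h.1)), if_neg (fun h => hc (Or.inr h.1))] at a2
      have a3 : ((sxs H σ x).card : ℝ) ≤ (sxs H (upd σ v v' z) x).card := by exact_mod_cast a1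
      have a4 : ((cxs H (upd σ v v' z) x).card : ℝ) ≤ (cxs H σ x).card := by exact_mod_cast a2
      have a9 := mul_le_mul_of_nonneg_left a3 hq0
      rw [he0]
      linarith
  have hsum : ∑ z ∈ Z, ∑ x, Real.exp (((cxs H (upd σ v v' z) x).card : ℝ) / 2 -
      q * (sxs H (upd σ v v' z) x).card) ≤
      ∑ z ∈ Z, ∑ x, Real.exp (((cxs H σ x).card : ℝ) / 2 - q * (sxs H σ x).card) := by
    rw [sum_comm, sum_comm (s := Z) (t := univ)]
    exact sum_le_sum fun x _ => hx x
  obtain ⟨z, hz, hzle⟩ := exists_le_of_sum_le hZne hsum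
  refine ⟨upd σ v v' z, ⟨upd_inv (hZ z hz), upd_ok (hZ z hz) hI.ok, upd_cf (hZ z hz) hI.ok hI.cf,
    hzle.trans hI.pot⟩, upd_mts (hZ z hz)⟩

open Classical in
theorem cxs_le {F : Finset V} {D C1 q L : ℝ} {σ : V → V}
    (hD : ∀ v, ((univ.filter fun w => H.Adj v w).card : ℝ) ≤ D)
    (hI : Inv H F C1 q σ) (hm : 0 < (Fintype.card V : ℝ)) (hq : q = 40 * D / Fintype.card V)
    (hL : 2 * (Real.log (Fintype.card V) + 40 * D / Fintype.card V * D) ≤ L) (x : V) :
    ((cxs H σ x).card : ℝ) ≤ L := by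
  have hD0 : 0 ≤ D := le_trans (Nat.cast_nonneg _) (hD x)
  have hq0 : 0 ≤ q := by rw [hq]; positivity
  have h1 : Real.exp (((cxs H σ x).card : ℝ) / 2 - q * (sxs H σ x).card) ≤ Fintype.card V :=
    (single_le_sum (f := fun x => Real.exp (((cxs H σ x).card : ℝ) / 2 - q * (sxs H σ x).card))
      (fun _ _ => (Real.exp_pos _).le) (mem_univ x)).trans hI.pot
  have h2 := Real.log_le_log (Real.exp_pos _) h1
  rw [Real.log_exp] at h2
  have h3 : ((sxs H σ x).card : ℝ) ≤ D := by
    refine le_trans ?_ (hD x)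
    have : (sxs H σ x).card ≤ (univ.filter fun w => H.Adj x w).card := by
      refine card_le_card fun w hw => ?_
      unfold sxs at hw
      rw [mem_filter] at hw ⊢
      exact ⟨mem_univ _, hw.2.1⟩
    exact_mod_cast this
  have h4 := mul_le_mul_of_nonneg_left h3 hq0
  rw [← hq] at hL
  linarith

open Classical in
theorem step {F : Finset V} (hF : F.card ≤ 1) {D C1 q L : ℝ} {σ : V → V} (hC1 : 0 < C1)
    (hD : ∀ v, ((univ.filter fun w => H.Adj v w).card : ℝ) ≤ D)
    (hm : 20 ≤ (Fintype.card V : ℝ)) (hq : q = 40 * D / Fintype.card V)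
    (h1 : D ≤ Fintype.card V / 128) (h2 : D ^ 2 ≤ C1 * (Fintype.card V / 64))
    (h3 : L * C1 ≤ Fintype.card V / 64)
    (hL : 2 * (Real.log (Fintype.card V) + 40 * D / Fintype.card V * D) ≤ L)
    (hI : Inv H F C1 q σ) {v v' : V} (hv : σ v = v) (hv' : σ v' = v') (hvF : v ∉ F)
    (hvF' : v' ∉ F) (hne : v ≠ v') :
    ∃ σ', Inv H F C1 q σ' ∧ (mts σ).card < (mts σ').card := by
  have hm0 : 0 < (Fintype.card V : ℝ) := by linarith
  have hbad : ∀ a, ((bad H F C1 σ a).card : ℝ) ≤ 3 * (Fintype.card V / 64) + 2 := by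
    intro a
    have b1 := bad_card hF hC1 hD hI.ok a
    have b2 : D ^ 2 / C1 ≤ Fintype.card V / 64 := by
      rw [div_le_iff₀ hC1, mul_comm]; exact h2
    have b3 : ((cxs H σ a).card : ℝ) * C1 ≤ Fintype.card V / 64 :=
      (mul_le_mul_of_nonneg_right (cxs_le hD hI hm0 hq hL a) hC1.le).trans h3
    linarith
  by_cases hc : (Fintype.card V : ℝ) / 2 ≤ (mts σ).card
  · set Z := (mts σ \ bad H F C1 σ v) \ (univ.filter fun z => σ z ∈ bad H F C1 σ v') with hZdef
    refine step_of_Z hD hI hm0 hq v v' Z ?_ ?_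
    · intro z hz
      rw [hZdef, mem_sdiff, mem_sdiff, mem_filter] at hz
      obtain ⟨⟨z1, z2⟩, z3⟩ := hz
      have z4 : σ z ≠ z := by unfold mts at z1; rw [mem_filter] at z1; exact z1.2
      have z5 : σ z ∉ bad H F C1 σ v' := fun h => z3 ⟨mem_univ _, h⟩
      obtain ⟨o1, o2⟩ := not_bad hvF z2
      obtain ⟨o3, o4⟩ := not_bad hvF' z5
      exact ⟨hI.inv, hv, hv', o1.1.symm, Or.inl ⟨z4, hne⟩, o1, o3, o2, o4⟩
    · have c1 : (mts σ).card ≤ Z.card + (bad H F C1 σ v).card + (bad H F C1 σ v').card := by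
        have d1 : (mts σ) ⊆ (Z ∪ bad H F C1 σ v) ∪ (univ.filter fun z => σ z ∈ bad H F C1 σ v') := by
          intro z hz
          rw [mem_union, mem_union, hZdef, mem_sdiff, mem_sdiff]
          by_cases e1 : z ∈ bad H F C1 σ v
          · exact Or.inl (Or.inr e1)
          · by_cases e2 : z ∈ univ.filter fun z => σ z ∈ bad H F C1 σ v'
            · exact Or.inr e2
            · exact Or.inl (Or.inl ⟨⟨hz, e1⟩, e2⟩)
        have d2 : (univ.filter fun z => σ z ∈ bad H F C1 σ v').card ≤ (bad H F C1 σ v').card := by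
          refine card_le_card_of_injOn σ ?_ ?_
          · intro z hz
            rw [mem_coe, mem_filter] at hz
            exact hz.2
          · intro a _ b _ hab
            have := congrArg σ hab
            rwa [hI.inv, hI.inv] at this
        have d3 := card_le_card d1
        have d4 := card_union_le (Z ∪ bad H F C1 σ v)
          (univ.filter fun z => σ z ∈ bad H F C1 σ v')
        have d5 := card_union_le Z (bad H F C1 σ v)
        omega
      have c2 : ((mts σ).card : ℝ) ≤ Z.card + (bad H F C1 σ v).card + (bad H F C1 σ v').card := by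
        exact_mod_cast c1
      have c3 := hbad v
      have c4 := hbad v'
      linarith
  · set Z := (univ \ mts σ) \ bad H F C1 σ v with hZdef
    refine step_of_Z hD hI hm0 hq v v Z ?_ ?_
    · intro z hz
      rw [hZdef, mem_sdiff, mem_sdiff] at hz
      obtain ⟨⟨_, z1⟩, z2⟩ := hz
      have z4 : σ z = z := by
        by_contra h
        exact z1 (by unfold mts; rw [mem_filter]; exact ⟨mem_univ _, h⟩)
      obtain ⟨o1, o2⟩ := not_bad hvF z2
      refine ⟨hI.inv, hv, hv, o1.1.symm, Or.inr ⟨z4, rfl⟩, o1, ?_, o2, ?_⟩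
      · rw [z4]; exact o1
      · rw [z4]; exact o2
    · have c1 : Fintype.card V ≤ Z.card + (bad H F C1 σ v).card + (mts σ).card := by
        have d1 : (univ : Finset V) ⊆ (Z ∪ bad H F C1 σ v) ∪ mts σ := by
          intro z _
          rw [mem_union, mem_union, hZdef, mem_sdiff, mem_sdiff]
          by_cases e1 : z ∈ bad H F C1 σ v
          · exact Or.inl (Or.inr e1)
          · by_cases e2 : z ∈ mts σ
            · exact Or.inr e2
            · exact Or.inl (Or.inl ⟨⟨mem_univ _, e2⟩, e1⟩)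
        have d3 := card_le_card d1
        have d4 := card_union_le (Z ∪ bad H F C1 σ v) (mts σ)
        have d5 := card_union_le Z (bad H F C1 σ v)
        rw [card_univ] at d3
        omega
      have c2 : (Fintype.card V : ℝ) ≤ Z.card + (bad H F C1 σ v).card + (mts σ).card := by
        exact_mod_cast c1
      have c3 := hbad v
      push Not at hc
      linarith

open Classical in
/-- a perfect matching without conflicts -/
theorem engine {V : Type} [Fintype V] (H : SimpleGraph V) (F : Finset V) (hF : F.card ≤ 1)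
    (D C1 L : ℝ) (_hD0 : 0 ≤ D) (hC1 : 0 < C1)
    (hD : ∀ v, ((Finset.univ.filter fun w => H.Adj v w).card : ℝ) ≤ D)
    (hm : 20 ≤ (Fintype.card V : ℝ)) (h1 : D ≤ Fintype.card V / 128)
    (h2 : D ^ 2 ≤ C1 * (Fintype.card V / 64)) (h3 : L * C1 ≤ Fintype.card V / 64)
    (h4 : 2 * (Real.log (Fintype.card V) + 40 * D / Fintype.card V * D) ≤ L) :
    ∃ s : V → V, (∀ x, s (s x) = x) ∧ (∀ x ∈ F, s x = x) ∧
      (∀ x, s x ≠ x → ¬ H.Adj x (s x) ∧ ∀ u ∈ F, ¬ (H.Adj u x ∧ H.Adj u (s x))) ∧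
      (∀ x y, s x ≠ x → s y ≠ y → x ≠ y → x ≠ s y →
        ¬ (H.Adj x y ∧ H.Adj x (s y) ∧ H.Adj (s x) y ∧ H.Adj (s x) (s y))) ∧
      (∀ x y, x ∉ F → y ∉ F → s x = x → s y = y → x = y) := by
  set q := 40 * D / Fintype.card V with hq
  have hI0 : Inv H F C1 q id := by
    refine ⟨fun _ => rfl, fun x hx => absurd rfl hx, fun x _ hx => absurd rfl hx, ?_⟩
    have e1 : ∀ x, (cxs H (id : V → V) x).card = 0 := by
      intro x; unfold cxs; simp
    have e2 : ∀ x, (sxs H (id : V → V) x).card = 0 := by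
      intro x; unfold sxs; simp
    simp [e1, e2]
  obtain ⟨s, hs, hmax⟩ := exists_max_image (univ.filter fun s : V → V => Inv H F C1 q s)
    (fun s => (mts s).card) ⟨id, by rw [mem_filter]; exact ⟨mem_univ _, hI0⟩⟩
  rw [mem_filter] at hs
  have hI := hs.2
  refine ⟨s, hI.inv, fun x hx => ?_, fun x hx => ⟨(hI.ok x hx).2.1, fun u hu =>
    ((hI.ok x hx).2.2.2 u hu).2.2⟩, hI.cf, ?_⟩
  · by_contra h
    exact ((hI.ok x h).2.2.2 x hx).1 rfl
  · intro x y hx hy hsx hsy
    by_contra hne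
    obtain ⟨s', hI', hlt⟩ := step hF hC1 hD hm hq h1 h2 h3 h4 hI hsx hsy hx hy hne
    have := hmax s' (by rw [mem_filter]; exact ⟨mem_univ _, hI'⟩)
    omega

end

end Vale.Agent.P060
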