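import Vale.Agent.Lib.P060.Engine

/-! P060: the matching engine with many fixed vertices: every vertex has at most one
neighbour in the fixed set `F`. -/

namespace Vale.Agent.P060

open Finset

noncomputable section

variable {V : Type} [Fintype V] {H : SimpleGraph V}

open Classical in
/-- bad partners of `v` (apart from the fixed vertices) -/
def bad2 (H : SimpleGraph V) (F : Finset V) (C1 : ℝ) (σ : V → V) (v : V) : Finset V :=
  univ.filter fun z => H.Adj v z ∨ C1 < (cod H v z : ℝ) ∨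
    (∃ w, H.Adj v w ∧ σ w ≠ w ∧ H.Adj v (σ w) ∧ H.Adj z w ∧ H.Adj z (σ w)) ∨ z = v ∨
    ∃ u ∈ F, H.Adj u v ∧ H.Adj u z

theorem not_bad2 {F : Finset V} {C1 : ℝ} {σ : V → V} {v z : V} (hv : v ∉ F) (hz : z ∉ F)
    (h : z ∉ bad2 H F C1 σ v) :
    Okp H F C1 v z ∧ ∀ y, σ y ≠ y → ¬ Cf H v z y (σ y) := by
  classical
  unfold bad2 at h
  rw [mem_filter] at h
  push Not at h
  obtain ⟨h1, h2, h3, h4, h6⟩ := h (mem_univ _)
  refine ⟨⟨Ne.symm h4, h1, h2, fun u hu => ⟨?_, ?_, ?_⟩⟩, ?_⟩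
  · rintro rfl; exact hv hu
  · rintro rfl; exact hz hu
  · rintro ⟨a, b⟩; exact h6 u hu a b
  · rintro y hy ⟨c1, c2, c3, c4⟩
    exact h3 y c1 hy c2 c3 c4

open Classical in
theorem bad2_card {F : Finset V}
    (hF : ∀ x, x ∉ F → ∀ u ∈ F, ∀ w ∈ F, H.Adj x u → H.Adj x w → u = w) {D C1 : ℝ} (hC1 : 0 < C1)
    (hD : ∀ v, ((univ.filter fun w => H.Adj v w).card : ℝ) ≤ D) {σ : V → V}
    (hok : ∀ x, σ x ≠ x → Okp H F C1 x (σ x)) (v : V) (hv : v ∉ F) :
    ((bad2 H F C1 σ v).card : ℝ) ≤ 2 * D + D ^ 2 / C1 + (cxs H σ v).card * C1 + 1 := by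
  have hD0 : 0 ≤ D := le_trans (Nat.cast_nonneg _) (hD v)
  set B1 := univ.filter (fun w => H.Adj v w) with hB1
  set B2 := univ.filter (fun z => C1 < (cod H v z : ℝ)) with hB2
  set B3 := (cxs H σ v).biUnion (fun w => univ.filter fun z => H.Adj w z ∧ H.Adj (σ w) z) with hB3
  set F1 := F.filter (fun u => H.Adj u v) with hF1
  set B6 := F1.biUnion (fun u => univ.filter fun z => H.Adj u z) with hB6
  have hF1c : F1.card ≤ 1 := by
    rw [Finset.card_le_one]
    intro a ha b hb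
    rw [hF1, mem_filter] at ha hb
    exact hF v hv a ha.1 b hb.1 ha.2.symm hb.2.symm
  have hsub : bad2 H F C1 σ v ⊆ (((B1 ∪ B2) ∪ B3) ∪ {v}) ∪ B6 := by
    intro z hz
    unfold bad2 at hz
    rw [mem_filter] at hz
    simp only [mem_union]
    rcases hz.2 with h | h | ⟨w, h1, h2, h3, h4, h5⟩ | h | ⟨u, hu, hu1, h2⟩
    · left; left; left; left; rw [hB1, mem_filter]; exact ⟨mem_univ _, h⟩
    · left; left; left; right; rw [hB2, mem_filter]; exact ⟨mem_univ _, h⟩
    · left; left; right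
      rw [hB3, mem_biUnion]
      refine ⟨w, ?_, ?_⟩
      · unfold cxs; rw [mem_filter]; exact ⟨mem_univ _, h1, h2, h3⟩
      · rw [mem_filter]; exact ⟨mem_univ _, h4.symm, h5.symm⟩
    · left; right; rw [mem_singleton]; exact h
    · right
      rw [hB6, mem_biUnion]
      exact ⟨u, by rw [hF1, mem_filter]; exact ⟨hu, hu1⟩, by rw [mem_filter]; exact ⟨mem_univ _, h2⟩⟩
  have hc : (bad2 H F C1 σ v).card ≤ B1.card + B2.card + B3.card + 1 + B6.card := by
    refine (card_le_card hsub).trans ((card_union_le _ _).trans (Nat.add_le_add_right ?_ _))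
    refine (card_union_le _ _).trans ?_
    rw [card_singleton]
    refine Nat.add_le_add_right ?_ _
    refine (card_union_le _ _).trans (Nat.add_le_add_right ?_ _)
    exact card_union_le _ _
  have h1 : (B1.card : ℝ) ≤ D := hD v
  have h2 : (B2.card : ℝ) ≤ D ^ 2 / C1 := by
    rw [le_div_iff₀ hC1, sq]
    refine le_trans ?_ (sum_cod_le hD v)
    calc (B2.card : ℝ) * C1 = ∑ z ∈ B2, C1 := by rw [sum_const, nsmul_eq_mul]
      _ ≤ ∑ z ∈ B2, (cod H v z : ℝ) := sum_le_sum fun z hz => by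
          rw [hB2, mem_filter] at hz; exact hz.2.le
      _ ≤ ∑ z, (cod H v z : ℝ) :=
          sum_le_sum_of_subset_of_nonneg (subset_univ _) fun _ _ _ => Nat.cast_nonneg _
  have h3 : (B3.card : ℝ) ≤ (cxs H σ v).card * C1 := by
    have h4 : (B3.card : ℝ) ≤ ∑ w ∈ cxs H σ v, (cod H w (σ w) : ℝ) := by
      have : B3.card ≤ ∑ w ∈ cxs H σ v, cod H w (σ w) := card_biUnion_le
      exact_mod_cast this
    refine h4.trans ?_
    rw [← nsmul_eq_mul, ← sum_const]
    refine sum_le_sum fun w hw => ?_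
    unfold cxs at hw
    rw [mem_filter] at hw
    exact (hok w hw.2.2.1).2.2.1
  have h6 : (B6.card : ℝ) ≤ D := by
    have h4 : (B6.card : ℝ) ≤ ∑ u ∈ F1, ((univ.filter fun z => H.Adj u z).card : ℝ) := by
      have : B6.card ≤ ∑ u ∈ F1, (univ.filter fun z => H.Adj u z).card := card_biUnion_le
      exact_mod_cast this
    refine h4.trans ((sum_le_sum fun u _ => hD u).trans ?_)
    rw [sum_const, nsmul_eq_mul]
    have : (F1.card : ℝ) ≤ 1 := by exact_mod_cast hF1c
    nlinarith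
  have hc' : ((bad2 H F C1 σ v).card : ℝ) ≤ B1.card + B2.card + B3.card + 1 + B6.card := by
    exact_mod_cast hc
  linarith

open Classical in
theorem step2 {F : Finset V}
    (hF : ∀ x, x ∉ F → ∀ u ∈ F, ∀ w ∈ F, H.Adj x u → H.Adj x w → u = w)
    (hFc : (F.card : ℝ) ≤ Fintype.card V / 3) {D C1 q L : ℝ} {σ : V → V} (hC1 : 0 < C1)
    (hD : ∀ v, ((univ.filter fun w => H.Adj v w).card : ℝ) ≤ D)
    (hm : 300 ≤ (Fintype.card V : ℝ)) (hq : q = 40 * D / Fintype.card V)
    (h1 : D ≤ Fintype.card V / 128) (h2 : D ^ 2 ≤ C1 * (Fintype.card V / 64))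
    (h3 : L * C1 ≤ Fintype.card V / 64)
    (hL : 2 * (Real.log (Fintype.card V) + 40 * D / Fintype.card V * D) ≤ L)
    (hI : Inv H F C1 q σ) {v v' : V} (hv : σ v = v) (hv' : σ v' = v') (hvF : v ∉ F)
    (hvF' : v' ∉ F) (hne : v ≠ v') :
    ∃ σ', Inv H F C1 q σ' ∧ (mts σ).card < (mts σ').card := by
  have hm0 : 0 < (Fintype.card V : ℝ) := by linarith
  have hbad : ∀ a, a ∉ F → ((bad2 H F C1 σ a).card : ℝ) ≤ 3 * (Fintype.card V / 64) + 1 := by
    intro a ha
    have b1 := bad2_card hF hC1 hD hI.ok a ha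
    have b2 : D ^ 2 / C1 ≤ Fintype.card V / 64 := by
      rw [div_le_iff₀ hC1, mul_comm]; exact h2
    have b3 : ((cxs H σ a).card : ℝ) * C1 ≤ Fintype.card V / 64 :=
      (mul_le_mul_of_nonneg_right (cxs_le hD hI hm0 hq hL a) hC1.le).trans h3
    linarith
  have hmF : ∀ z, σ z ≠ z → z ∉ F := fun z hz hzF => ((hI.ok z hz).2.2.2 z hzF).1 rfl
  by_cases hc : (Fintype.card V : ℝ) * (2 / 5) ≤ (mts σ).card
  · set Z := (mts σ \ bad2 H F C1 σ v) \ (univ.filter fun z => σ z ∈ bad2 H F C1 σ v') with hZdef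
    refine step_of_Z hD hI hm0 hq v v' Z ?_ ?_
    · intro z hz
      rw [hZdef, mem_sdiff, mem_sdiff, mem_filter] at hz
      obtain ⟨⟨z1, z2⟩, z3⟩ := hz
      have z4 : σ z ≠ z := by unfold mts at z1; rw [mem_filter] at z1; exact z1.2
      have z5 : σ z ∉ bad2 H F C1 σ v' := fun h => z3 ⟨mem_univ _, h⟩
      have z6 : σ (σ z) ≠ σ z := by rw [hI.inv]; exact Ne.symm z4
      obtain ⟨o1, o2⟩ := not_bad2 hvF (hmF z z4) z2
      obtain ⟨o3, o4⟩ := not_bad2 hvF' (hmF (σ z) z6) z5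
      exact ⟨hI.inv, hv, hv', o1.1.symm, Or.inl ⟨z4, hne⟩, o1, o3, o2, o4⟩
    · have c1 : (mts σ).card ≤ Z.card + (bad2 H F C1 σ v).card + (bad2 H F C1 σ v').card := by
        have d1 : (mts σ) ⊆ (Z ∪ bad2 H F C1 σ v) ∪
            (univ.filter fun z => σ z ∈ bad2 H F C1 σ v') := by
          intro z hz
          rw [mem_union, mem_union, hZdef, mem_sdiff, mem_sdiff]
          by_cases e1 : z ∈ bad2 H F C1 σ v
          · exact Or.inl (Or.inr e1)
          · by_cases e2 : z ∈ univ.filter fun z => σ z ∈ bad2 H F C1 σ v'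
            · exact Or.inr e2
            · exact Or.inl (Or.inl ⟨⟨hz, e1⟩, e2⟩)
        have d2 : (univ.filter fun z => σ z ∈ bad2 H F C1 σ v').card ≤
            (bad2 H F C1 σ v').card := by
          refine card_le_card_of_injOn σ ?_ ?_
          · intro z hz
            rw [mem_coe, mem_filter] at hz
            exact hz.2
          · intro a _ b _ hab
            have := congrArg σ hab
            rwa [hI.inv, hI.inv] at this
        have d3 := card_le_card d1
        have d4 := card_union_le (Z ∪ bad2 H F C1 σ v)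
          (univ.filter fun z => σ z ∈ bad2 H F C1 σ v')
        have d5 := card_union_le Z (bad2 H F C1 σ v)
        omega
      have c2 : ((mts σ).card : ℝ) ≤
          Z.card + (bad2 H F C1 σ v).card + (bad2 H F C1 σ v').card := by
        exact_mod_cast c1
      have c3 := hbad v hvF
      have c4 := hbad v' hvF'
      linarith
  · set Z := ((univ \ mts σ) \ bad2 H F C1 σ v) \ F with hZdef
    refine step_of_Z hD hI hm0 hq v v Z ?_ ?_
    · intro z hz
      rw [hZdef, mem_sdiff, mem_sdiff, mem_sdiff] at hz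
      obtain ⟨⟨⟨_, z1⟩, z2⟩, z3⟩ := hz
      have z4 : σ z = z := by
        by_contra h
        exact z1 (by unfold mts; rw [mem_filter]; exact ⟨mem_univ _, h⟩)
      obtain ⟨o1, o2⟩ := not_bad2 hvF z3 z2
      refine ⟨hI.inv, hv, hv, o1.1.symm, Or.inr ⟨z4, rfl⟩, o1, ?_, o2, ?_⟩
      · rw [z4]; exact o1
      · rw [z4]; exact o2
    · have c1 : Fintype.card V ≤ Z.card + F.card + (bad2 H F C1 σ v).card + (mts σ).card := by
        have d1 : (univ : Finset V) ⊆ ((Z ∪ F) ∪ bad2 H F C1 σ v) ∪ mts σ := by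
          intro z _
          rw [mem_union, mem_union, mem_union, hZdef, mem_sdiff, mem_sdiff, mem_sdiff]
          by_cases e1 : z ∈ bad2 H F C1 σ v
          · exact Or.inl (Or.inr e1)
          · by_cases e2 : z ∈ mts σ
            · exact Or.inr e2
            · by_cases e3 : z ∈ F
              · exact Or.inl (Or.inl (Or.inr e3))
              · exact Or.inl (Or.inl (Or.inl ⟨⟨⟨mem_univ _, e2⟩, e1⟩, e3⟩))
        have d3 := card_le_card d1
        have d4 := card_union_le ((Z ∪ F) ∪ bad2 H F C1 σ v) (mts σ)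
        have d5 := card_union_le (Z ∪ F) (bad2 H F C1 σ v)
        have d6 := card_union_le Z F
        rw [card_univ] at d3
        omega
      have c2 : (Fintype.card V : ℝ) ≤
          Z.card + F.card + (bad2 H F C1 σ v).card + (mts σ).card := by
        exact_mod_cast c1
      have c3 := hbad v hvF
      push Not at hc
      linarith

open Classical in
/-- a perfect matching without conflicts outside the fixed set `F` -/
theorem engine2 {V : Type} [Fintype V] (H : SimpleGraph V) (F : Finset V)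
    (hF : ∀ x, x ∉ F → ∀ u ∈ F, ∀ w ∈ F, H.Adj x u → H.Adj x w → u = w)
    (hFc : (F.card : ℝ) ≤ Fintype.card V / 3)
    (D C1 L : ℝ) (hC1 : 0 < C1)
    (hD : ∀ v, ((Finset.univ.filter fun w => H.Adj v w).card : ℝ) ≤ D)
    (hm : 300 ≤ (Fintype.card V : ℝ)) (h1 : D ≤ Fintype.card V / 128)
    (h2 : D ^ 2 ≤ C1 * (Fintype.card V / 64)) (h3 : L * C1 ≤ Fintype.card V / 64)
    (h4 : 2 * (Real.log (Fintype.card V) + 40 * D / Fintype.card V * D) ≤ L) :
    ∃ s : V → V, (∀ x, s (s x) = x) ∧ (∀ x ∈ F, s x = x) ∧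
      (∀ x, s x ≠ x → ¬ H.Adj x (s x) ∧ ∀ u ∈ F, ¬ (H.Adj u x ∧ H.Adj u (s x))) ∧
      (∀ x y, s x ≠ x → s y ≠ y → x ≠ y → x ≠ s y →
        ¬ (H.Adj x y ∧ H.Adj x (s y) ∧ H.Adj (s x) y ∧ H.Adj (s x) (s y))) ∧
      (∀ x y, x ∉ F → y ∉ F → s x = x → s y = y → x = y) := by
  set q := 40 * D / Fintype.card V with hq
  have hI0 : Inv H F C1 q id := by
    refine ⟨fun _ => rfl, fun x hx => absurd rfl hx, fun x _ hx => absurd rfl hx, ?_⟩
    have e1 : ∀ x, (cxs H (id : V → V) x).card = 0 := by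
      intro x; unfold cxs; simp
    have e2 : ∀ x, (sxs H (id : V → V) x).card = 0 := by
      intro x; unfold sxs; simp
    simp [e1, e2]
  obtain ⟨s, hs, hmax⟩ := exists_max_image (univ.filter fun s : V → V => Inv H F C1 q s)
    (fun s => (mts s).card) ⟨id, by rw [mem_filter]; exact ⟨mem_univ _, hI0⟩⟩
  rw [mem_filter] at hs
  have hI := hs.2
  refine ⟨s, hI.inv, fun x hx => ?_, fun x hx => ⟨(hI.ok x hx).2.1, fun u hu =>
    ((hI.ok x hx).2.2.2 u hu).2.2⟩, hI.cf, ?_⟩
  · by_contra h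
    exact ((hI.ok x h).2.2.2 x hx).1 rfl
  · intro x y hx hy hsx hsy
    by_contra hne
    obtain ⟨s', hI', hlt⟩ := step2 hF hFc hC1 hD hm hq h1 h2 h3 h4 hI hsx hsy hx hy hne
    have := hmax s' (by rw [mem_filter]; exact ⟨mem_univ _, hI'⟩)
    omega

end

end Vale.Agent.P060
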