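import Vale.Agent.Lib.P060.Defs

/-! P060: clique minors from an involution. -/

namespace Vale.Agent.P060

/-- the fixed points of an involution have the parity of the ground set -/
theorem fixed_parity {m : ℕ} (s : Fin m → Fin m) (hs : ∀ x, s (s x) = x) :
    (Finset.univ.filter fun x => s x = x).card % 2 = m % 2 := by
  classical
  have h1 : (Finset.univ.filter fun x : Fin m => s x = x).card
      + (Finset.univ.filter fun x : Fin m => ¬ s x = x).card = m := by
    rw [Finset.card_filter_add_card_filter_not]; simp
  have h2 : Even (Finset.univ.filter fun x : Fin m => ¬ s x = x).card := by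
    have h3 : (Finset.univ.filter fun x : Fin m => ¬ s x = x).card
        = (Finset.univ.filter fun x : Fin m => x < s x).card
          + (Finset.univ.filter fun x : Fin m => s x < x).card := by
      rw [← Finset.card_union_of_disjoint]
      · congr 1
        ext x
        simp only [Finset.mem_filter, Finset.mem_univ, true_and, Finset.mem_union]
        constructor
        · intro h
          rcases lt_trichotomy x (s x) with h' | h' | h'
          · exact Or.inl h'
          · exact absurd h'.symm h
          · exact Or.inr h'
        · rintro (h | h) h'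
          · rw [h'] at h; exact lt_irrefl _ h
          · rw [h'] at h; exact lt_irrefl _ h
      · rw [Finset.disjoint_filter]
        intro x _ h h'
        exact lt_asymm h h'
    have h4 : (Finset.univ.filter fun x : Fin m => x < s x).card
        = (Finset.univ.filter fun x : Fin m => s x < x).card := by
      apply Finset.card_bij (fun x _ => s x)
      · intro x hx
        simp only [Finset.mem_filter, Finset.mem_univ, true_and] at hx ⊢
        rw [hs]; exact hx
      · intro x _ y _ h
        rw [← hs x, ← hs y, h]
      · intro x hx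
        simp only [Finset.mem_filter, Finset.mem_univ, true_and] at hx
        exact ⟨s x, by simp only [Finset.mem_filter, Finset.mem_univ, true_and]; rw [hs]; exact hx,
          hs x⟩
    rw [h3, h4]
    exact ⟨_, rfl⟩
  obtain ⟨k, hk⟩ := h2
  omega

/-- fewer branch sets -/
theorem minor_mono {V : Type} {G : SimpleGraph V} {s t : ℕ} (h : s ≤ t)
    (hG : HasCliqueMinor G t) : HasCliqueMinor G s := by
  obtain ⟨B, h1, h2, h3, h4⟩ := hG
  refine ⟨fun i => B (Fin.castLE h i), fun i => h1 _, fun i => h2 _, fun i j hij => h3 _ _ ?_,
    fun i j hij => h4 _ _ ?_⟩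
  · intro he; exact hij (Fin.castLE_injective h he)
  · intro he; exact hij (Fin.castLE_injective h he)

/-- a set of the form `{x, y}` with `x` adjacent to `y` or equal to `y` is connected -/
theorem conn_pair {V : Type} (G : SimpleGraph V) (x y : V) (h : x ≠ y → G.Adj x y) :
    (G.induce ({x, y} : Set V)).Connected := by
  rw [SimpleGraph.connected_iff]
  refine ⟨?_, ⟨⟨x, Or.inl rfl⟩⟩⟩
  have key : ∀ z : ({x, y} : Set V), (G.induce ({x, y} : Set V)).Reachable ⟨x, Or.inl rfl⟩ z := by
    rintro ⟨z, hz⟩
    rcases hz with rfl | hz
    · exact SimpleGraph.Reachable.refl _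
    · have hz' : z = y := hz
      by_cases hxy : x = y
      · have : (⟨x, Or.inl rfl⟩ : ({x, y} : Set V)) = ⟨z, Or.inr hz⟩ :=
          Subtype.ext (hxy.trans hz'.symm)
        rw [this]
      · have : (G.induce ({x, y} : Set V)).Adj ⟨x, Or.inl rfl⟩ ⟨z, Or.inr hz⟩ := by
          simp only [SimpleGraph.comap_adj, Function.Embedding.subtype_apply]
          rw [hz']; exact h hxy
        exact this.reachable
  intro a b
  exact (key a).symm.trans (key b)

/-- complete graphs -/
theorem minor_top {m : ℕ} (G : SimpleGraph (Fin m)) (h : ∀ x y, x ≠ y → G.Adj x y) :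
    HasCliqueMinor G m := by
  refine ⟨fun i => {i, i}, fun i => ⟨i, Or.inl rfl⟩, fun i => conn_pair G i i (fun h => absurd rfl h),
    fun i j hij => ?_, fun i j hij => ⟨i, Or.inl rfl, j, Or.inl rfl, h i j hij⟩⟩
  rw [Set.disjoint_left]
  rintro a (ha | ha) (hb | hb) <;> exact hij (ha.symm.trans hb)

/-- branch sets `{x, s x}` of an involution -/
theorem minor_of_inv {m : ℕ} (G : SimpleGraph (Fin m)) (s : Fin m → Fin m)
    (hs : ∀ x, s (s x) = x) (h1 : ∀ x, s x ≠ x → G.Adj x (s x))
    (h2 : ∀ x y, x ≠ y → x ≠ s y → G.Adj x y ∨ G.Adj x (s y) ∨ G.Adj (s x) y ∨ G.Adj (s x) (s y))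
    (h3 : (Finset.univ.filter fun x => s x = x).card ≤ 1) :
    HasCliqueMinor G ((m + 1) / 2) := by
  classical
  set R : Finset (Fin m) := Finset.univ.filter fun x => x ≤ s x with hR
  have hcard : R.card = (m + 1) / 2 := by
    have e1 : R.card = (Finset.univ.filter fun x : Fin m => s x = x).card
        + (Finset.univ.filter fun x : Fin m => x < s x).card := by
      rw [← Finset.card_union_of_disjoint]
      · congr 1
        ext x
        simp only [hR, Finset.mem_filter, Finset.mem_univ, true_and, Finset.mem_union]
        constructor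
        · intro h
          rcases lt_or_eq_of_le h with h' | h'
          · exact Or.inr h'
          · exact Or.inl h'.symm
        · rintro (h | h)
          · exact le_of_eq h.symm
          · exact h.le
      · rw [Finset.disjoint_filter]
        intro x _ h h'
        rw [h] at h'; exact lt_irrefl _ h'
    have e2 : (Finset.univ.filter fun x : Fin m => x < s x).card
        = (Finset.univ.filter fun x : Fin m => s x < x).card := by
      apply Finset.card_bij (fun x _ => s x)
      · intro x hx
        simp only [Finset.mem_filter, Finset.mem_univ, true_and] at hx ⊢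
        rw [hs]; exact hx
      · intro x _ y _ h
        rw [← hs x, ← hs y, h]
      · intro x hx
        simp only [Finset.mem_filter, Finset.mem_univ, true_and] at hx
        exact ⟨s x, by simp only [Finset.mem_filter, Finset.mem_univ, true_and]; rw [hs]; exact hx,
          hs x⟩
    have e3 : R.card + (Finset.univ.filter fun x : Fin m => s x < x).card = m := by
      have := Finset.card_filter_add_card_filter_not (s := (Finset.univ : Finset (Fin m)))
        (fun x : Fin m => x ≤ s x)
      simp only [not_le, Finset.card_univ, Fintype.card_fin] at this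
      exact this
    have e4 := fixed_parity s hs
    have e5 : (Finset.univ.filter fun x : Fin m => s x = x).card = 0 ∨
        (Finset.univ.filter fun x : Fin m => s x = x).card = 1 := by omega
    rcases e5 with e5 | e5 <;> omega
  obtain ⟨e⟩ : Nonempty (Fin ((m + 1) / 2) ≃ R) := by
    rw [← hcard]; exact ⟨(Finset.equivFin R).symm⟩
  have key : ∀ i j, i ≠ j → (e i : Fin m) ≠ e j ∧ (e i : Fin m) ≠ s (e j) := by
    intro i j hij
    have hne : (e i : Fin m) ≠ e j := fun h => hij (e.injective (Subtype.ext h))
    refine ⟨hne, fun h => ?_⟩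
    have hi : (e i : Fin m) ≤ s (e i) := (Finset.mem_filter.1 (e i).2).2
    have hj : (e j : Fin m) ≤ s (e j) := (Finset.mem_filter.1 (e j).2).2
    have hsi : s (e i) = e j := by rw [h, hs]
    rw [hsi] at hi
    rw [← h] at hj
    exact hne (le_antisymm hi hj)
  refine ⟨fun i => {(e i : Fin m), s (e i)}, fun i => ⟨_, Or.inl rfl⟩,
    fun i => conn_pair G _ _ (fun h => h1 _ (Ne.symm h)), fun i j hij => ?_, fun i j hij => ?_⟩
  · rw [Set.disjoint_left]
    obtain ⟨k1, k2⟩ := key i j hij
    obtain ⟨k3, k4⟩ := key j i (Ne.symm hij)
    rintro a (ha | ha) (hb | hb)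
    · exact k1 (ha.symm.trans hb)
    · exact k2 (ha.symm.trans hb)
    · exact k4 (hb.symm.trans ha)
    · have h5 : s (e i) = s (e j) := (Eq.symm ha).trans hb
      have h6 := congrArg s h5
      rw [hs, hs] at h6
      exact k1 h6
  · obtain ⟨k1, k2⟩ := key i j hij
    rcases h2 _ _ k1 k2 with h | h | h | h
    · exact ⟨_, Or.inl rfl, _, Or.inl rfl, h⟩
    · exact ⟨_, Or.inl rfl, _, Or.inr rfl, h⟩
    · exact ⟨_, Or.inr rfl, _, Or.inl rfl, h⟩
    · exact ⟨_, Or.inr rfl, _, Or.inr rfl, h⟩

end Vale.Agent.P060
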