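import Vale.Agent.Lib.P060.Extract
import Vale.Agent.Lib.P060.Engine

/-! P060: graphs whose complement has maximum degree at most `m ^ (3/4) / 128` have a clique minor
on `⌈m/2⌉` vertices. -/

namespace Vale.Agent.P060

open Finset

open Classical in
/-- from a good involution to the minor -/
theorem minor_of_good {m : ℕ} (G : SimpleGraph (Fin m)) (F : Finset (Fin m))
    (s : Fin m → Fin m) (hs : ∀ x, s (s x) = x)
    (hp1 : ∀ x, s x ≠ x → ¬ Gᶜ.Adj x (s x) ∧ ∀ u ∈ F, ¬ (Gᶜ.Adj u x ∧ Gᶜ.Adj u (s x)))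
    (hp2 : ∀ x y, s x ≠ x → s y ≠ y → x ≠ y → x ≠ s y →
        ¬ (Gᶜ.Adj x y ∧ Gᶜ.Adj x (s y) ∧ Gᶜ.Adj (s x) y ∧ Gᶜ.Adj (s x) (s y)))
    (hfix : ∀ x, s x = x → x ∈ F) (hF : F.card ≤ 1) :
    HasCliqueMinor G ((m + 1) / 2) := by
  have hF1 : ∀ x y, x ∈ F → y ∈ F → x = y := fun x y hx hy => Finset.card_le_one.mp hF x hx y hy
  have hinj : ∀ {a b : Fin m}, s a = s b → a = b := by
    intro a b hab
    rw [← hs a, hab, hs b]
  refine minor_of_inv G s hs ?_ ?_ ?_
  · intro x hx
    have h := (hp1 x hx).1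
    by_contra hc
    exact h ((SimpleGraph.compl_adj _ _ _).mpr ⟨Ne.symm hx, hc⟩)
  · intro x y hxy hxs
    by_contra hc
    push Not at hc
    obtain ⟨c1, c2, c3, c4⟩ := hc
    have hsxy : s x ≠ y := fun h => hxs (by rw [← h, hs])
    have hsxs : s x ≠ s y := fun h => hxy (hinj h)
    have a1 : Gᶜ.Adj x y := (SimpleGraph.compl_adj _ _ _).mpr ⟨hxy, c1⟩
    have a2 : Gᶜ.Adj x (s y) := (SimpleGraph.compl_adj _ _ _).mpr ⟨hxs, c2⟩
    have a3 : Gᶜ.Adj (s x) y := (SimpleGraph.compl_adj _ _ _).mpr ⟨hsxy, c3⟩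
    have a4 : Gᶜ.Adj (s x) (s y) := (SimpleGraph.compl_adj _ _ _).mpr ⟨hsxs, c4⟩
    by_cases hx : s x = x
    · by_cases hy : s y = y
      · exact hxy (hF1 x y (hfix x hx) (hfix y hy))
      · exact (hp1 y hy).2 x (hfix x hx) ⟨a1, a2⟩
    · by_cases hy : s y = y
      · exact (hp1 x hx).2 y (hfix y hy) ⟨a1.symm, a3.symm⟩
      · exact hp2 x y hx hy hxy hxs ⟨a1, a2, a3, a4⟩
  · refine le_trans (Finset.card_le_card ?_) hF
    intro x hx
    exact hfix x (Finset.mem_filter.mp hx).2

theorem num_log (m : ℝ) (hm : 1 ≤ m) : Real.log m ≤ Real.sqrt m := by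
  have hm0 : 0 < m := lt_of_lt_of_le one_pos hm
  have h1 : Real.log m = 4 * Real.log (Real.sqrt (Real.sqrt m)) := by
    rw [Real.log_sqrt (Real.sqrt_nonneg m), Real.log_sqrt hm0.le]
    ring
  have hpos : 0 < Real.sqrt (Real.sqrt m) := Real.sqrt_pos.mpr (Real.sqrt_pos.mpr hm0)
  have h2 := Real.log_le_sub_one_of_pos hpos
  have h3 : Real.sqrt m = Real.sqrt (Real.sqrt m) ^ 2 := (Real.sq_sqrt (Real.sqrt_nonneg m)).symm
  rw [h1]
  nlinarith [sq_nonneg (Real.sqrt (Real.sqrt m) - 2)]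

theorem num_pow (m : ℝ) (hm : 1 ≤ m) : (m ^ ((3 : ℝ) / 4)) ^ 2 = m * Real.sqrt m := by
  have hm0 : 0 ≤ m := by linarith
  rw [← Real.rpow_natCast, ← Real.rpow_mul hm0, Real.sqrt_eq_rpow]
  have h1 : (3 : ℝ) / 4 * ((2 : ℕ) : ℝ) = 1 + 1 / 2 := by norm_num
  rw [h1, Real.rpow_add (by linarith), Real.rpow_one]

open Classical in
theorem final (m : ℕ) (G : SimpleGraph (Fin m))
    (hdeg : ∀ v, ((Finset.univ.filter fun w => w ≠ v ∧ ¬ G.Adj v w).card : ℝ) ≤
      (m : ℝ) ^ ((3 : ℝ) / 4) / 128) : HasCliqueMinor G ((m + 1) / 2) := by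
  rcases lt_or_ge ((m : ℝ) ^ ((3 : ℝ) / 4)) 128 with hsmall | hbig
  · -- `G` is complete
    refine minor_mono (t := m) (by omega) (minor_top G ?_)
    intro x y hxy
    by_contra hc
    have h1 := hdeg x
    have h2 : (m : ℝ) ^ ((3 : ℝ) / 4) / 128 < 1 := by
      rw [div_lt_one (by norm_num)]
      exact hsmall
    have h3 : ((Finset.univ.filter fun w => w ≠ x ∧ ¬ G.Adj x w).card : ℝ) < 1 :=
      lt_of_le_of_lt h1 h2
    have h4 : (Finset.univ.filter fun w => w ≠ x ∧ ¬ G.Adj x w).card < 1 := by exact_mod_cast h3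
    have h5 : y ∈ (Finset.univ.filter fun w => w ≠ x ∧ ¬ G.Adj x w) :=
      Finset.mem_filter.mpr ⟨Finset.mem_univ _, Ne.symm hxy, hc⟩
    have h6 : (Finset.univ.filter fun w => w ≠ x ∧ ¬ G.Adj x w) = ∅ := by
      rw [← Finset.card_eq_zero]
      omega
    rw [h6] at h5
    exact absurd h5 (Finset.notMem_empty _)
  · have hm0 : m ≠ 0 := by
      rintro rfl
      rw [Nat.cast_zero, Real.zero_rpow (by norm_num)] at hbig
      norm_num at hbig
    have hm1 : (1 : ℝ) ≤ m := by exact_mod_cast Nat.one_le_iff_ne_zero.mpr hm0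
    have hpm : (m : ℝ) ^ ((3 : ℝ) / 4) ≤ m := by
      conv_rhs => rw [← Real.rpow_one (m : ℝ)]
      exact Real.rpow_le_rpow_of_exponent_le hm1 (by norm_num)
    have hm128 : (128 : ℝ) ≤ m := le_trans hbig hpm
    have hsq := Real.mul_self_sqrt (by linarith : (0 : ℝ) ≤ m)
    have hsq1 : (1 : ℝ) ≤ Real.sqrt m := Real.one_le_sqrt.mpr hm1
    -- the fixed set
    obtain ⟨F, hFc, hFodd⟩ : ∃ F : Finset (Fin m), F.card ≤ 1 ∧ F.card % 2 = m % 2 := by
      rcases Nat.mod_two_eq_zero_or_one m with he | ho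
      · exact ⟨∅, by simp, by simp [he]⟩
      · exact ⟨{⟨0, Nat.pos_of_ne_zero hm0⟩}, by simp, by simp [ho]⟩
    have hcard : (Fintype.card (Fin m) : ℝ) = m := by rw [Fintype.card_fin]
    have hlog := num_log (m : ℝ) hm1
    have hpow := num_pow (m : ℝ) hm1
    have hDsq : ((m : ℝ) ^ ((3 : ℝ) / 4) / 128) ^ 2 = m * Real.sqrt m / 16384 := by
      rw [div_pow, hpow]
      norm_num
    obtain ⟨s, hs, hsF, hp1, hp2, hp3⟩ := engine (Gᶜ) F hFc ((m : ℝ) ^ ((3 : ℝ) / 4) / 128)
      (Real.sqrt m / 256) (4 * Real.sqrt m) (by positivity) (by positivity)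
      (by
        intro v
        refine le_trans (le_of_eq ?_) (hdeg v)
        refine congrArg Nat.cast (congrArg Finset.card ?_)
        ext w
        simp only [Finset.mem_filter, Finset.mem_univ, true_and, SimpleGraph.compl_adj]
        constructor
        · rintro ⟨a, b⟩
          exact ⟨Ne.symm a, b⟩
        · rintro ⟨a, b⟩
          exact ⟨Ne.symm a, b⟩)
      (by rw [hcard]; linarith)
      (by rw [hcard]; linarith)
      (by
        rw [hcard, hDsq]
        apply le_of_eq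
        ring)
      (by
        rw [hcard]
        nlinarith [hsq])
      (by
        rw [hcard]
        have h5 : 40 * ((m : ℝ) ^ ((3 : ℝ) / 4) / 128) / m * ((m : ℝ) ^ ((3 : ℝ) / 4) / 128) =
            40 * Real.sqrt m / 16384 := by
          have h6 : 40 * ((m : ℝ) ^ ((3 : ℝ) / 4) / 128) / m * ((m : ℝ) ^ ((3 : ℝ) / 4) / 128) =
              40 * ((m : ℝ) ^ ((3 : ℝ) / 4) / 128) ^ 2 / m := by ring
          rw [h6, hDsq]
          field_simp
        rw [h5]
        linarith)
    have hpar := fixed_parity s hs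
    have hfix : ∀ x, s x = x → x ∈ F := by
      intro x hx
      by_contra hxF
      have heq : (Finset.univ.filter fun y => s y = y) = insert x F := by
        ext y
        simp only [Finset.mem_filter, Finset.mem_univ, true_and, Finset.mem_insert]
        constructor
        · intro hy
          by_cases hyF : y ∈ F
          · exact Or.inr hyF
          · exact Or.inl (hp3 y x hyF hxF hy hx)
        · rintro (rfl | hy)
          · exact hx
          · exact hsF y hy
      have hc : (Finset.univ.filter fun y => s y = y).card = F.card + 1 := by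
        rw [heq, Finset.card_insert_of_notMem hxF]
      rw [hc] at hpar
      omega
    exact minor_of_good G F s hs hp1 hp2 hfix hFc

open Classical in
/-- transport to an arbitrary finite vertex set -/
theorem final_type (V : Type) [Fintype V] (G : SimpleGraph V)
    (hdeg : ∀ v, ((Finset.univ.filter fun w => w ≠ v ∧ ¬ G.Adj v w).card : ℝ) ≤
      (Fintype.card V : ℝ) ^ ((3 : ℝ) / 4) / 128) :
    HasCliqueMinor G ((Fintype.card V + 1) / 2) := by
  let e : Fin (Fintype.card V) ≃ V := (Fintype.equivFin V).symm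
  let G' : SimpleGraph (Fin (Fintype.card V)) := G.comap e
  have h1 : HasCliqueMinor G' ((Fintype.card V + 1) / 2) := by
    apply final
    intro v
    have h2 := hdeg (e v)
    refine le_trans (le_of_eq ?_) h2
    congr 1
    refine Finset.card_bij (fun w _ => e w) ?_ ?_ ?_
    · intro w hw
      rw [Finset.mem_filter] at hw ⊢
      exact ⟨Finset.mem_univ _, fun h => hw.2.1 (e.injective h), hw.2.2⟩
    · intro a _ b _ hab
      exact e.injective hab
    · intro w hw
      rw [Finset.mem_filter] at hw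
      refine ⟨e.symm w, ?_, e.apply_symm_apply w⟩
      rw [Finset.mem_filter]
      refine ⟨Finset.mem_univ _, fun h => hw.2.1 (by rw [← h, e.apply_symm_apply]), ?_⟩
      intro h
      have h3 : G.Adj (e v) (e (e.symm w)) := h
      rw [e.apply_symm_apply] at h3
      exact hw.2.2 h3
  obtain ⟨B, hB1, hB2, hB3, hB4⟩ := h1
  refine ⟨fun i => e '' (B i), fun i => (hB1 i).image e, ?_, ?_, ?_⟩
  · intro i
    have hiso : (G'.induce (B i)) ≃g (G.induce (e '' (B i))) :=
      { toEquiv := e.image (B i)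
        map_rel_iff' := by
          intro a b
          rfl }
    exact hiso.connected_iff.mp (hB2 i)
  · intro i j hij
    exact (Set.disjoint_image_iff e.injective).mpr (hB3 i j hij)
  · intro i j hij
    obtain ⟨a, ha, b, hb, hab⟩ := hB4 i j hij
    exact ⟨e a, Set.mem_image_of_mem e ha, e b, Set.mem_image_of_mem e hb, hab⟩

end Vale.Agent.P060
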