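import Mathlib

/-! P060: the deficiency version of Tutte's theorem (Tutte-Berge), in the form of a colouring of
the complement. -/

namespace Vale.Agent.P060

open Finset

noncomputable section

theorem odd_iso {α β : Type} [Finite α] [Finite β] {G : SimpleGraph α} {G' : SimpleGraph β}
    (φ : G ≃g G') : G.oddComponents.ncard ≤ G'.oddComponents.ncard := by
  refine Set.ncard_le_ncard_of_injOn (fun c => φ.connectedComponentEquiv c) ?_ ?_ (Set.toFinite _)
  · intro c hc
    have h := Nat.card_congr (SimpleGraph.ConnectedComponent.isoEquivSupp φ c)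
    rw [Nat.card_coe_set_eq, Nat.card_coe_set_eq] at h
    show Odd _
    rw [← h]
    exact hc
  · exact (φ.connectedComponentEquiv.injective).injOn

/-- `H` with `d` universal vertices added -/
def joinK {V : Type} (H : SimpleGraph V) (d : ℕ) : SimpleGraph (V ⊕ Fin d) where
  Adj x y := x ≠ y ∧ ∀ a b, x = Sum.inl a → y = Sum.inl b → H.Adj a b
  symm := ⟨fun _ _ h => ⟨h.1.symm, fun a b ha hb => (h.2 b a hb ha).symm⟩⟩
  loopless := ⟨fun _ h => h.1 rfl⟩

/-- number of odd components of `H - S` -/
def oq {V : Type} (H : SimpleGraph V) (S : Set V) : ℕ := (H.induce Sᶜ).oddComponents.ncard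

variable {V : Type} [Fintype V]

theorem oq_parity (H : SimpleGraph V) (S : Set V) : (oq H S + S.ncard) % 2 = Fintype.card V % 2 := by
  have h1 := SimpleGraph.odd_ncard_oddComponents (H.induce Sᶜ)
  have h2 : Nat.card (Sᶜ : Set V) = (Sᶜ).ncard := Nat.card_coe_set_eq _
  have h3 : S.ncard + (Sᶜ).ncard = Fintype.card V := by
    rw [Set.ncard_add_ncard_compl, Nat.card_eq_fintype_card]
  rw [h2] at h1
  have h4 : (oq H S) % 2 = (Sᶜ).ncard % 2 := by
    rcases Nat.even_or_odd (Sᶜ).ncard with he | ho
    · have : ¬ Odd (oq H S) := fun h => (Nat.not_odd_iff_even.mpr he) (h1.mp h)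
      rw [Nat.not_odd_iff_even] at this
      rw [Nat.even_iff] at this he
      omega
    · have : Odd (oq H S) := h1.mpr ho
      rw [Nat.odd_iff] at this ho
      omega
  omega

theorem no_violator (H : SimpleGraph V) (d : ℕ) (hd : ∀ S : Set V, oq H S ≤ S.ncard + d)
    (hpar : (Fintype.card V + d) % 2 = 0) (u : Set (V ⊕ Fin d)) :
    ¬ (joinK H d).IsTutteViolator u := by
  unfold SimpleGraph.IsTutteViolator
  rw [not_lt]
  set K := ((⊤ : (joinK H d).Subgraph).deleteVerts u).coe with hK
  by_cases hc : ∃ i : Fin d, Sum.inr i ∉ u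
  · obtain ⟨i, hi⟩ := hc
    have hw : (Sum.inr i : V ⊕ Fin d) ∈ ((⊤ : (joinK H d).Subgraph).deleteVerts u).verts := by
      simp [hi]
    have hmk : ∀ x, K.connectedComponentMk x = K.connectedComponentMk ⟨Sum.inr i, hw⟩ := by
      intro x
      by_cases hx : x = ⟨Sum.inr i, hw⟩
      · rw [hx]
      · apply SimpleGraph.ConnectedComponent.sound
        apply SimpleGraph.Adj.reachable
        rw [hK, SimpleGraph.Subgraph.coe_adj, SimpleGraph.Subgraph.deleteVerts_adj]
        have hxu := x.2
        simp only [SimpleGraph.Subgraph.deleteVerts_verts, SimpleGraph.Subgraph.verts_top,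
          Set.mem_sdiff, Set.mem_univ, true_and] at hxu
        refine ⟨by simp, hxu, by simp, hi, ?_⟩
        rw [SimpleGraph.Subgraph.top_adj]
        refine ⟨fun h => hx (Subtype.ext h), ?_⟩
        intro a b _ hb
        exact absurd hb (by simp)
    have hsub : ∀ c c' : K.ConnectedComponent, c = c' := by
      intro c c'
      induction c using SimpleGraph.ConnectedComponent.ind with
      | h a =>
        induction c' using SimpleGraph.ConnectedComponent.ind with
        | h b => rw [hmk a, hmk b]
    have hle1 : K.oddComponents.ncard ≤ 1 := by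
      rw [Set.ncard_le_one]
      intro a _ b _
      exact hsub a b
    by_cases hu : u = ∅
    · have hodd := SimpleGraph.odd_ncard_oddComponents K
      have hcard : Nat.card ((⊤ : (joinK H d).Subgraph).deleteVerts u).verts =
          Fintype.card V + d := by
        rw [Nat.card_coe_set_eq, hu]
        simp [Set.ncard_univ, Nat.card_eq_fintype_card]
      rw [hcard] at hodd
      have hne : ¬ Odd K.oddComponents.ncard := by
        rw [hodd, Nat.odd_iff]
        omega
      rw [Nat.odd_iff] at hne
      omega
    · have : 1 ≤ u.ncard := by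
        rw [Nat.one_le_iff_ne_zero, Ne, Set.ncard_eq_zero]
        exact hu
      omega
  · push Not at hc
    set S : Set V := Sum.inl ⁻¹' u with hS
    have hu : u.ncard = S.ncard + d := by
      have e1 : u = Sum.inl '' S ∪ Set.range Sum.inr := by
        ext x
        rcases x with a | i
        · simp [hS]
        · simp [hc i]
      have e2 : Disjoint (Sum.inl '' S : Set (V ⊕ Fin d)) (Set.range Sum.inr) := by
        rw [Set.disjoint_left]
        rintro x ⟨a, _, rfl⟩ ⟨i, hi⟩
        exact absurd hi (by simp)
      rw [e1, Set.ncard_union_eq e2, Set.ncard_image_of_injective _ Sum.inl_injective]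
      congr 1
      rw [← Set.image_univ, Set.ncard_image_of_injective _ Sum.inr_injective, Set.ncard_univ,
        Nat.card_eq_fintype_card, Fintype.card_fin]
    rw [hu]
    refine le_trans ?_ (hd S)
    let ψ : (Sᶜ : Set V) → ((⊤ : (joinK H d).Subgraph).deleteVerts u).verts := fun a =>
      ⟨Sum.inl a.1, by
        have ha := a.2
        simp only [SimpleGraph.Subgraph.deleteVerts_verts, SimpleGraph.Subgraph.verts_top,
          Set.mem_sdiff, Set.mem_univ, true_and]
        exact ha⟩
    have hψ : Function.Bijective ψ := by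
      constructor
      · intro a b hab
        have h1 : (Sum.inl a.1 : V ⊕ Fin d) = Sum.inl b.1 := congrArg Subtype.val hab
        exact Subtype.ext (Sum.inl_injective h1)
      · rintro ⟨x, hx⟩
        have hx' := hx
        simp only [SimpleGraph.Subgraph.deleteVerts_verts, SimpleGraph.Subgraph.verts_top,
          Set.mem_sdiff, Set.mem_univ, true_and] at hx'
        rcases x with a | i
        · exact ⟨⟨a, hx'⟩, rfl⟩
        · exact absurd (hc i) hx'
    have φ : (H.induce (Sᶜ : Set V)) ≃g K :=
      { toEquiv := Equiv.ofBijective ψ hψ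
        map_rel_iff' := by
          intro a b
          show K.Adj (ψ a) (ψ b) ↔ H.Adj a.1 b.1
          rw [hK, SimpleGraph.Subgraph.coe_adj, SimpleGraph.Subgraph.deleteVerts_adj,
            SimpleGraph.Subgraph.top_adj]
          constructor
          · rintro ⟨_, _, _, _, h⟩
            exact h.2 a.1 b.1 rfl rfl
          · intro h
            refine ⟨by simp, a.2, by simp, b.2, ?_, ?_⟩
            · intro h'
              exact h.ne (Sum.inl_injective h')
            · intro a' b' ha hb
              rw [← Sum.inl_injective ha, ← Sum.inl_injective hb]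
              exact h }
    exact odd_iso φ.symm

open Classical in
/-- representatives of an involution -/
theorem reps_card {α : Type} [Fintype α] {N : ℕ} (e : α ≃ Fin N) (s : α → α)
    (hs : ∀ x, s (s x) = x) :
    2 * (univ.filter fun x => e x ≤ e (s x)).card =
      Fintype.card α + (univ.filter fun x => s x = x).card := by
  have h1 : (univ.filter fun x => e x ≤ e (s x)) ∪ (univ.filter fun x => e (s x) ≤ e x) = univ := by
    ext x
    simp only [mem_union, mem_filter, mem_univ, true_and, iff_true]
    exact le_total _ _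
  have h2 : (univ.filter fun x => e x ≤ e (s x)) ∩ (univ.filter fun x => e (s x) ≤ e x) =
      univ.filter fun x => s x = x := by
    ext x
    simp only [mem_inter, mem_filter, mem_univ, true_and]
    constructor
    · rintro ⟨a, b⟩
      exact e.injective (le_antisymm b a)
    · intro h
      rw [h]
      exact ⟨le_rfl, le_rfl⟩
  have h3 : (univ.filter fun x => e x ≤ e (s x)).card =
      (univ.filter fun x => e (s x) ≤ e x).card := by
    refine card_bij (fun x _ => s x) ?_ ?_ ?_
    · intro x hx
      simp only [mem_filter, mem_univ, true_and] at hx ⊢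
      rw [hs]
      exact hx
    · intro a _ b _ hab
      rw [← hs a, hab, hs b]
    · intro x hx
      simp only [mem_filter, mem_univ, true_and] at hx
      refine ⟨s x, ?_, hs x⟩
      simp only [mem_filter, mem_univ, true_and]
      rw [hs]
      exact hx
  have h4 := card_union_add_card_inter (univ.filter fun x => e x ≤ e (s x))
    (univ.filter fun x => e (s x) ≤ e x)
  rw [h1, h2, ← h3, card_univ] at h4
  omega

theorem colorable_of_join (H : SimpleGraph V) (d : ℕ) (hd : ∀ S : Set V, oq H S ≤ S.ncard + d)
    (hpar : (Fintype.card V + d) % 2 = 0) : (Hᶜ).Colorable ((Fintype.card V + d) / 2) := by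
  classical
  obtain ⟨M, hM⟩ := SimpleGraph.tutte.mpr (no_violator H d hd hpar)
  have hex : ∀ x, ∃ y, M.Adj x y ∧ ∀ z, M.Adj x z → z = y := by
    intro x
    obtain ⟨y, hy, hy2⟩ := hM.1 (hM.2 x)
    exact ⟨y, hy, hy2⟩
  choose s hs1 hs2 using hex
  have hs : ∀ x, s (s x) = x := fun x => (hs2 (s x) x (hs1 x).symm).symm
  have hne : ∀ x, s x ≠ x := fun x h => (M.adj_sub (hs1 x)).ne h.symm
  let e := Fintype.equivFin (V ⊕ Fin d)
  have hR : 2 * (univ.filter fun x => e x ≤ e (s x)).card =
      Fintype.card (V ⊕ Fin d) + (univ.filter fun x => s x = x).card := by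
    have h := reps_card e s hs
    convert h
  have hfix : (univ.filter fun x => s x = x) = ∅ := by
    rw [filter_eq_empty_iff]
    intro x _
    exact hne x
  rw [hfix, card_empty, add_zero] at hR
  have hcardsum : Fintype.card (V ⊕ Fin d) = Fintype.card V + d := by
    rw [Fintype.card_sum, Fintype.card_fin]
  have hRc : (Fintype.card V + d) / 2 = (univ.filter fun x => e x ≤ e (s x)).card := by omega
  rw [hRc]
  let c : V → (univ.filter fun x => e x ≤ e (s x) : Finset (V ⊕ Fin d)) := fun v =>
    if h : e (Sum.inl v) ≤ e (s (Sum.inl v)) then ⟨Sum.inl v, by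
      rw [mem_filter]; exact ⟨mem_univ _, h⟩⟩
    else ⟨s (Sum.inl v), by
      rw [mem_filter, hs]; exact ⟨mem_univ _, (not_le.mp h).le⟩⟩
  have hc : ∀ v, (c v).1 = Sum.inl v ∨ (c v).1 = s (Sum.inl v) := by
    intro v
    by_cases h : e (Sum.inl v) ≤ e (s (Sum.inl v))
    · left
      simp only [c]
      rw [dif_pos h]
    · right
      simp only [c]
      rw [dif_neg h]
  have hcol : (Hᶜ).Coloring (univ.filter fun x => e x ≤ e (s x) : Finset (V ⊕ Fin d)) := by
    refine SimpleGraph.Coloring.mk c ?_
    intro v w hvw hcvw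
    rw [SimpleGraph.compl_adj] at hvw
    have hval : (c v).1 = (c w).1 := congrArg Subtype.val hcvw
    have key : ∀ v w : V, v ≠ w → ¬ H.Adj v w → (Sum.inl w : V ⊕ Fin d) ≠ s (Sum.inl v) := by
      intro v w _ hn h
      have h1 := M.adj_sub (hs1 (Sum.inl v))
      rw [← h] at h1
      exact hn (h1.2 v w rfl rfl)
    rcases hc v with h1 | h1 <;> rcases hc w with h2 | h2
    · rw [h1, h2] at hval
      exact hvw.1 (Sum.inl_injective hval)
    · rw [h1, h2] at hval
      exact key w v hvw.1.symm (fun h => hvw.2 h.symm) hval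
    · rw [h1, h2] at hval
      exact key v w hvw.1 hvw.2 hval.symm
    · rw [h1, h2] at hval
      have := congrArg s hval
      rw [hs, hs] at this
      exact hvw.1 (Sum.inl_injective this)
  have := hcol.colorable
  rwa [Fintype.card_coe] at this

/-- Tutte-Berge: the structure `A`, `F` -/
theorem tb {V : Type} [Fintype V] (H : SimpleGraph V) : ∃ A F : Finset V, Disjoint A F ∧
    (∀ u ∈ F, ∀ v ∈ F, u ≠ v → ¬ H.Adj u v) ∧
    (∀ x, x ∉ A → ∀ u ∈ F, ∀ v ∈ F, H.Adj x u → H.Adj x v → u = v) ∧
    A.card ≤ F.card ∧ (Fintype.card V + F.card + A.card) % 2 = 0 ∧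
    (Hᶜ).Colorable ((Fintype.card V + F.card - A.card) / 2) := by
  classical
  obtain ⟨A, _, hA⟩ := exists_max_image (univ : Finset (Finset V))
    (fun S => (oq H (S : Set V) : ℤ) - S.card) ⟨∅, mem_univ _⟩
  have hA0 := hA ∅ (mem_univ _)
  rw [card_empty] at hA0
  have hAle : A.card ≤ oq H (A : Set V) := by
    have h0 : (0 : ℤ) ≤ (oq H ((∅ : Finset V) : Set V) : ℤ) := Int.natCast_nonneg _
    omega
  obtain ⟨d, hd⟩ : ∃ d, oq H (A : Set V) = A.card + d := ⟨oq H (A : Set V) - A.card, by omega⟩
  have hall : ∀ S : Set V, oq H S ≤ S.ncard + d := by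
    intro S
    have h1 := hA S.toFinset (mem_univ _)
    rw [Set.coe_toFinset] at h1
    rw [Set.ncard_eq_toFinset_card']
    omega
  have hparA := oq_parity H (A : Set V)
  rw [Set.ncard_coe_finset] at hparA
  let K := H.induce ((A : Set V)ᶜ)
  let F : Finset V := K.oddComponents.toFinset.image (fun c => (Quot.out c).1)
  have hout : ∀ c : K.ConnectedComponent, K.connectedComponentMk (Quot.out c) = c :=
    fun c => Quot.out_eq c
  have hFc : F.card = oq H (A : Set V) := by
    show (K.oddComponents.toFinset.image (fun c => (Quot.out c).1)).card = _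
    rw [card_image_of_injective]
    · rw [← Set.ncard_eq_toFinset_card']
      rfl
    · intro c c' hcc
      have h1 : Quot.out c = Quot.out c' := Subtype.ext hcc
      rw [← hout c, ← hout c', h1]
  have hF : ∀ u ∈ F, ∃ c : K.ConnectedComponent, (Quot.out c).1 = u := by
    intro u hu
    obtain ⟨c, _, hc⟩ := mem_image.mp hu
    exact ⟨c, hc⟩
  have hadj : ∀ (c : K.ConnectedComponent) (x : V) (hx : x ∉ A), H.Adj x (Quot.out c).1 →
      K.connectedComponentMk ⟨x, hx⟩ = c := by
    intro c x hx h
    rw [← hout c]
    apply SimpleGraph.ConnectedComponent.sound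
    apply SimpleGraph.Adj.reachable
    exact h
  refine ⟨A, F, ?_, ?_, ?_, ?_, ?_, ?_⟩
  · rw [disjoint_left]
    intro a ha haF
    obtain ⟨c, rfl⟩ := hF a haF
    exact (Quot.out c).2 ha
  · intro u hu v hv huv h
    obtain ⟨c, rfl⟩ := hF u hu
    obtain ⟨c', rfl⟩ := hF v hv
    have h1 := hadj c' (Quot.out c).1 (Quot.out c).2 h
    have h2 : K.connectedComponentMk (Quot.out c) = c' := h1
    rw [hout] at h2
    exact huv (by rw [h2])
  · intro x hx u hu v hv h1 h2
    obtain ⟨c, rfl⟩ := hF u hu
    obtain ⟨c', rfl⟩ := hF v hv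
    have h3 := hadj c x hx h1
    have h4 := hadj c' x hx h2
    rw [← h3, ← h4]
  · rw [hFc]; exact hAle
  · rw [hFc]; omega
  · rw [hFc, hd]
    have h1 : Fintype.card V + (A.card + d) - A.card = Fintype.card V + d := by omega
    rw [h1]
    refine colorable_of_join H d hall ?_
    omega

end

end Vale.Agent.P060
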