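import Vale.Agent.Lib.P060.Final
import Vale.Agent.Lib.P060.Engine2
import Vale.Agent.Lib.P060.TB

/-! P060: Hadwiger's conjecture for graphs with a sparse complement and small clique number. -/

namespace Vale.Agent.P060

open Finset

open Classical in
/-- branch sets `{x, s x}` of an involution, any number of fixed points -/
theorem minor_of_inv2 {V : Type} [Fintype V] (G : SimpleGraph V) (s : V → V)
    (hs : ∀ x, s (s x) = x) (h1 : ∀ x, s x ≠ x → G.Adj x (s x))
    (h2 : ∀ x y, x ≠ y → x ≠ s y → G.Adj x y ∨ G.Adj x (s y) ∨ G.Adj (s x) y ∨ G.Adj (s x) (s y))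
    (t : ℕ) (ht : 2 * t = Fintype.card V + (univ.filter fun x => s x = x).card) :
    HasCliqueMinor G t := by
  let f := Fintype.equivFin V
  have hR : 2 * (univ.filter fun x => f x ≤ f (s x)).card =
      Fintype.card V + (univ.filter fun x => s x = x).card := by
    have h := reps_card f s hs
    convert h
  set R : Finset V := univ.filter fun x => f x ≤ f (s x) with hRdef
  have hcard : R.card = t := by omega
  obtain ⟨e⟩ : Nonempty (Fin t ≃ R) := by
    rw [← hcard]; exact ⟨(Finset.equivFin R).symm⟩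
  have key : ∀ i j, i ≠ j → (e i : V) ≠ e j ∧ (e i : V) ≠ s (e j) := by
    intro i j hij
    have hne : (e i : V) ≠ e j := fun h => hij (e.injective (Subtype.ext h))
    refine ⟨hne, fun h => ?_⟩
    have hi : f (e i : V) ≤ f (s (e i)) := (Finset.mem_filter.1 (e i).2).2
    have hj : f (e j : V) ≤ f (s (e j)) := (Finset.mem_filter.1 (e j).2).2
    have hsi : s (e i) = e j := by rw [h, hs]
    rw [hsi] at hi
    rw [← h] at hj
    exact hne (f.injective (le_antisymm hi hj))
  refine ⟨fun i => {(e i : V), s (e i)}, fun i => ⟨_, Or.inl rfl⟩,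
    fun i => conn_pair G _ _ (fun h => h1 _ (Ne.symm h)), fun i j hij => ?_, fun i j hij => ?_⟩
  · rw [Set.disjoint_left]
    obtain ⟨k1, k2⟩ := key i j hij
    obtain ⟨k3, k4⟩ := key j i (Ne.symm hij)
    rintro a (ha | ha) (hb | hb)
    · exact k1 (ha.symm.trans hb)
    · exact k2 (ha.symm.trans hb)
    · exact k4 (hb.symm.trans ha)
    · have h5 : s (e i) = s (e j) := (Eq.symm ha).trans hb
      have h6 := congrArg s h5
      rw [hs, hs] at h6
      exact k1 h6
  · obtain ⟨k1, k2⟩ := key i j hij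
    rcases h2 _ _ k1 k2 with h | h | h | h
    · exact ⟨_, Or.inl rfl, _, Or.inl rfl, h⟩
    · exact ⟨_, Or.inl rfl, _, Or.inr rfl, h⟩
    · exact ⟨_, Or.inr rfl, _, Or.inl rfl, h⟩
    · exact ⟨_, Or.inr rfl, _, Or.inr rfl, h⟩

/-- a minor of an induced subgraph is a minor -/
theorem minor_of_comap {V W : Type} (G : SimpleGraph V) (f : W → V) (hf : Function.Injective f)
    (t : ℕ) (h : HasCliqueMinor (G.comap f) t) : HasCliqueMinor G t := by
  obtain ⟨B, hB1, hB2, hB3, hB4⟩ := h
  refine ⟨fun i => f '' (B i), fun i => (hB1 i).image f, ?_, ?_, ?_⟩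
  · intro i
    have hiso : ((G.comap f).induce (B i)) ≃g (G.induce (f '' (B i))) :=
      { toEquiv := Equiv.Set.image f (B i) hf
        map_rel_iff' := by
          intro a b
          rfl }
    exact hiso.connected_iff.mp (hB2 i)
  · intro i j hij
    exact (Set.disjoint_image_iff hf).mpr (hB3 i j hij)
  · intro i j hij
    obtain ⟨a, ha, b, hb, hab⟩ := hB4 i j hij
    exact ⟨f a, Set.mem_image_of_mem f ha, f b, Set.mem_image_of_mem f hb, hab⟩

theorem card_le_aux {α β : Type} [Fintype α] [Fintype β] (f : α → β) (hf : Function.Injective f)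
    (p : α → Prop) (q : β → Prop) [DecidablePred p] [DecidablePred q] (h : ∀ a, p a → q (f a)) :
    (univ.filter p).card ≤ (univ.filter q).card := by
  refine card_le_card_of_injOn f ?_ hf.injOn
  intro a ha
  have ha' := (mem_filter.mp (mem_coe.mp ha)).2
  exact mem_coe.mpr (mem_filter.mpr ⟨mem_univ _, h a ha'⟩)

open Classical in
theorem hadwiger_big (V : Type) [Fintype V] (G : SimpleGraph V)
    (hdeg : ∀ v, ((Finset.univ.filter fun w => w ≠ v ∧ ¬ G.Adj v w).card : ℝ) ≤
      (Fintype.card V : ℝ) ^ ((3 : ℝ) / 4) / 256)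
    (homega : ∀ s : Finset V, G.IsClique (s : Set V) → 4 * s.card ≤ Fintype.card V)
    (hbig : 1024 ≤ Fintype.card V) :
    ∃ t : ℕ, G.Colorable t ∧ HasCliqueMinor G t := by
  obtain ⟨A, F, hdis, hind, huniq, hAF, hpar, hcol⟩ := tb (Gᶜ)
  rw [compl_compl] at hcol
  refine ⟨_, hcol, ?_⟩
  have hcliq : G.IsClique (F : Set V) := by
    intro u hu v hv huv
    by_contra hc
    exact hind u hu v hv huv ((SimpleGraph.compl_adj _ _ _).mpr ⟨huv, hc⟩)
  have hF4 := homega F hcliq
  -- the induced subgraph outside `A`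
  let W := {x : V // x ∉ A}
  let GW : SimpleGraph W := G.comap (Subtype.val : W → V)
  apply minor_of_comap G (Subtype.val : W → V) Subtype.val_injective
  have hn : Fintype.card W = Fintype.card V - A.card := by
    have h1 : Fintype.card W = (univ.filter fun x : V => x ∉ A).card := Fintype.card_subtype _
    have h2 : (univ.filter fun x : V => x ∉ A) = Aᶜ := by ext; simp
    rw [h1, h2, card_compl]
  let FW : Finset W := F.subtype (fun x => x ∉ A)
  have hFW : FW.card = F.card := by
    show (F.subtype (fun x => x ∉ A)).card = F.card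
    rw [card_subtype, filter_true_of_mem]
    intro x hx hxA
    exact (disjoint_left.mp hdis) hxA hx
  have hmemF : ∀ x : W, x ∈ FW ↔ x.1 ∈ F := fun x => mem_subtype
  have hAm : 4 * A.card ≤ Fintype.card V := by omega
  set m : ℝ := (Fintype.card V : ℝ) with hm
  set n : ℝ := (Fintype.card W : ℝ) with hnn
  have hm1024 : (1024 : ℝ) ≤ m := by rw [hm]; exact_mod_cast hbig
  have hnr : n = m - A.card := by
    rw [hnn, hn, Nat.cast_sub (by omega)]
  have hAr : 4 * (A.card : ℝ) ≤ m := by rw [hm]; exact_mod_cast hAm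
  have hFr : 4 * (F.card : ℝ) ≤ m := by rw [hm]; exact_mod_cast hF4
  have hn34 : 3 / 4 * m ≤ n := by rw [hnr]; linarith
  have hA0 : (0 : ℝ) ≤ A.card := Nat.cast_nonneg _
  have hnm : n ≤ m := by rw [hnr]; linarith
  have hm1 : (1 : ℝ) ≤ m := by linarith
  have hn1 : (1 : ℝ) ≤ n := by linarith
  have hsq := Real.mul_self_sqrt (by linarith : (0 : ℝ) ≤ m)
  have hsq1 : (1 : ℝ) ≤ Real.sqrt m := Real.one_le_sqrt.mpr hm1
  have hlog : Real.log n ≤ Real.sqrt m :=
    le_trans (num_log n hn1) (Real.sqrt_le_sqrt hnm)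
  have hpm : m ^ ((3 : ℝ) / 4) ≤ m := by
    conv_rhs => rw [← Real.rpow_one m]
    exact Real.rpow_le_rpow_of_exponent_le hm1 (by norm_num)
  have hDsq : (m ^ ((3 : ℝ) / 4) / 256) ^ 2 = m * Real.sqrt m / 65536 := by
    rw [div_pow, num_pow m hm1]
    norm_num
  have hadjiff : ∀ x y : W, GWᶜ.Adj x y ↔ Gᶜ.Adj x.1 y.1 := by
    intro x y
    rw [SimpleGraph.compl_adj, SimpleGraph.compl_adj]
    show (x ≠ y ∧ ¬ G.Adj x.1 y.1) ↔ _
    constructor
    · rintro ⟨a, b⟩
      exact ⟨fun h => a (Subtype.ext h), b⟩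
    · rintro ⟨a, b⟩
      exact ⟨fun h => a (congrArg Subtype.val h), b⟩
  obtain ⟨s, hs, hsF, hp1, hp2, hp3⟩ := engine2 (GWᶜ) FW
    (by
      intro x _ u hu w hw hxu hxw
      apply Subtype.ext
      exact huniq x.1 x.2 u.1 ((hmemF u).mp hu) w.1 ((hmemF w).mp hw) ((hadjiff _ _).mp hxu)
        ((hadjiff _ _).mp hxw))
    (by
      rw [hFW]
      show (F.card : ℝ) ≤ n / 3
      linarith)
    (m ^ ((3 : ℝ) / 4) / 256) (Real.sqrt m / 512) (4 * Real.sqrt m) (by positivity)
    (by
      intro v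
      refine le_trans ?_ (hdeg v.1)
      have h5 : ∀ (inst : DecidablePred fun w : W => GWᶜ.Adj v w),
          (@Finset.filter W (fun w => GWᶜ.Adj v w) inst univ).card ≤
            (univ.filter fun w => w ≠ v.1 ∧ ¬ G.Adj v.1 w).card := by
        intro inst
        refine card_le_aux Subtype.val Subtype.val_injective (fun w : W => GWᶜ.Adj v w)
          (fun w : V => w ≠ v.1 ∧ ¬ G.Adj v.1 w) ?_
        intro w hw
        have h3 := (SimpleGraph.compl_adj _ _ _).mp ((hadjiff _ _).mp hw)
        exact ⟨Ne.symm h3.1, h3.2⟩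
      exact Nat.cast_le.mpr (h5 _))
    (by show (300 : ℝ) ≤ n; linarith)
    (by show _ ≤ n / 128; linarith)
    (by
      show _ ≤ Real.sqrt m / 512 * (n / 64)
      rw [hDsq]
      have h5 : Real.sqrt m / 512 * ((3 / 4 * m) / 64) ≤ Real.sqrt m / 512 * (n / 64) := by
        apply mul_le_mul_of_nonneg_left _ (by positivity)
        linarith
      refine le_trans ?_ h5
      have h6 : 0 ≤ m * Real.sqrt m := by positivity
      nlinarith [h6])
    (by
      show _ ≤ n / 64
      nlinarith [hsq])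
    (by
      show 2 * (Real.log n + 40 * (m ^ ((3 : ℝ) / 4) / 256) / n * (m ^ ((3 : ℝ) / 4) / 256)) ≤ _
      have hn0 : 0 < n := by linarith
      have h6 : 40 * (m ^ ((3 : ℝ) / 4) / 256) / n * (m ^ ((3 : ℝ) / 4) / 256) =
          40 * (m ^ ((3 : ℝ) / 4) / 256) ^ 2 / n := by ring
      have h5 : 40 * (m ^ ((3 : ℝ) / 4) / 256) ^ 2 / n ≤ Real.sqrt m := by
        rw [hDsq, div_le_iff₀ hn0]
        have h7 : 0 ≤ m * Real.sqrt m := by positivity
        have h8 : Real.sqrt m * (3 / 4 * m) ≤ Real.sqrt m * n :=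
          mul_le_mul_of_nonneg_left hn34 (Real.sqrt_nonneg m)
        nlinarith [h7, h8]
      rw [h6]
      linarith)
  -- fixed points
  have hfW : 2 * (univ.filter fun x : W => Fintype.equivFin W x ≤ Fintype.equivFin W (s x)).card =
      Fintype.card W + (univ.filter fun x : W => s x = x).card := by
    have h := reps_card (Fintype.equivFin W) s hs
    convert h
  have hfix : ∀ x, s x = x → x ∈ FW := by
    intro x hx
    by_contra hxF
    have heq : (Finset.univ.filter fun y => s y = y) = insert x FW := by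
      ext y
      simp only [Finset.mem_filter, Finset.mem_univ, true_and, Finset.mem_insert]
      constructor
      · intro hy
        by_cases hyF : y ∈ FW
        · exact Or.inr hyF
        · exact Or.inl (hp3 y x hyF hxF hy hx)
      · rintro (rfl | hy)
        · exact hx
        · exact hsF y hy
    have hc : (Finset.univ.filter fun y => s y = y).card = FW.card + 1 := by
      rw [heq, Finset.card_insert_of_notMem hxF]
    rw [hc, hFW] at hfW
    omega
  have hGW : ∀ x y : W, x ≠ y → ¬ GWᶜ.Adj x y → GW.Adj x y := by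
    intro x y hxy hc
    by_contra hc2
    exact hc ((SimpleGraph.compl_adj _ _ _).mpr ⟨hxy, hc2⟩)
  have hinj : ∀ {a b : W}, s a = s b → a = b := by
    intro a b hab
    rw [← hs a, hab, hs b]
  refine minor_of_inv2 GW s hs ?_ ?_ _ ?_
  · intro x hx
    exact hGW x (s x) (Ne.symm hx) (hp1 x hx).1
  · intro x y hxy hxs
    by_contra hc
    push Not at hc
    obtain ⟨c1, c2, c3, c4⟩ := hc
    have hsxy : s x ≠ y := fun h => hxs (by rw [← h, hs])
    have hsxs : s x ≠ s y := fun h => hxy (hinj h)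
    have a1 : GWᶜ.Adj x y := (SimpleGraph.compl_adj _ _ _).mpr ⟨hxy, c1⟩
    have a2 : GWᶜ.Adj x (s y) := (SimpleGraph.compl_adj _ _ _).mpr ⟨hxs, c2⟩
    have a3 : GWᶜ.Adj (s x) y := (SimpleGraph.compl_adj _ _ _).mpr ⟨hsxy, c3⟩
    have a4 : GWᶜ.Adj (s x) (s y) := (SimpleGraph.compl_adj _ _ _).mpr ⟨hsxs, c4⟩
    by_cases hx : s x = x
    · by_cases hy : s y = y
      · have hxF := (hmemF x).mp (hfix x hx)
        have hyF := (hmemF y).mp (hfix y hy)
        exact hind x.1 hxF y.1 hyF (fun h => hxy (Subtype.ext h)) ((hadjiff _ _).mp a1)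
      · exact (hp1 y hy).2 x (hfix x hx) ⟨a1, a2⟩
    · by_cases hy : s y = y
      · exact (hp1 x hx).2 y (hfix y hy) ⟨a1.symm, a3.symm⟩
      · exact hp2 x y hx hy hxy hxs ⟨a1, a2, a3, a4⟩
  · have h9 : ∀ S : Finset W, (∀ y, y ∈ S ↔ s y = y) → S.card = F.card := by
      intro S hS
      rw [← hFW]
      congr 1
      ext y
      rw [hS]
      exact ⟨fun h => hfix y h, fun h => hsF y h⟩
    rw [h9 _ (fun y => by simp), hn]
    omega

open Classical in
/-- Hadwiger's conjecture for graphs with a sparse complement and clique number at most `m/4` -/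
theorem hadwiger_sparse (V : Type) [Fintype V] (G : SimpleGraph V)
    (hdeg : ∀ v, ((Finset.univ.filter fun w => w ≠ v ∧ ¬ G.Adj v w).card : ℝ) ≤
      (Fintype.card V : ℝ) ^ ((3 : ℝ) / 4) / 256)
    (homega : ∀ s : Finset V, G.IsClique (s : Set V) → 4 * s.card ≤ Fintype.card V) :
    ∃ t : ℕ, G.Colorable t ∧ HasCliqueMinor G t := by
  by_cases hbig : 1024 ≤ Fintype.card V
  · exact hadwiger_big V G hdeg homega hbig
  · -- `G` is complete, hence empty
    have hsmall : (Fintype.card V : ℝ) < 1024 := by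
      push Not at hbig
      exact_mod_cast hbig
    have hm0 : (0 : ℝ) ≤ Fintype.card V := Nat.cast_nonneg _
    have hpow : (Fintype.card V : ℝ) ^ ((3 : ℝ) / 4) < 256 := by
      have h1 : (Fintype.card V : ℝ) ^ ((3 : ℝ) / 4) < (1024 : ℝ) ^ ((3 : ℝ) / 4) :=
        Real.rpow_lt_rpow hm0 hsmall (by norm_num)
      have h2 : (1024 : ℝ) ^ ((3 : ℝ) / 4) ≤ 256 := by
        have h3 : (1024 : ℝ) = (2 : ℝ) ^ (10 : ℝ) := by norm_num
        have h4 : (256 : ℝ) = (2 : ℝ) ^ (8 : ℝ) := by norm_num
        rw [h3, h4, ← Real.rpow_mul (by norm_num)]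
        exact Real.rpow_le_rpow_of_exponent_le (by norm_num) (by norm_num)
      linarith
    have hcomp : G.IsClique ((univ : Finset V) : Set V) := by
      intro x _ y _ hxy
      by_contra hc
      have h1 := hdeg x
      have h3 : ((Finset.univ.filter fun w => w ≠ x ∧ ¬ G.Adj x w).card : ℝ) < 1 := by linarith
      have h4 : (Finset.univ.filter fun w => w ≠ x ∧ ¬ G.Adj x w).card < 1 := by
        exact_mod_cast h3
      have h5 : y ∈ (Finset.univ.filter fun w => w ≠ x ∧ ¬ G.Adj x w) :=
        Finset.mem_filter.mpr ⟨Finset.mem_univ _, Ne.symm hxy, hc⟩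
      have h6 : (Finset.univ.filter fun w => w ≠ x ∧ ¬ G.Adj x w) = ∅ := by
        rw [← Finset.card_eq_zero]
        omega
      rw [h6] at h5
      exact absurd h5 (Finset.notMem_empty _)
    have h0 := homega univ hcomp
    rw [card_univ] at h0
    have hV : Fintype.card V = 0 := by omega
    have : IsEmpty V := Fintype.card_eq_zero_iff.mp hV
    refine ⟨0, ⟨SimpleGraph.Coloring.mk (fun v => isEmptyElim v) (fun {v} => isEmptyElim v)⟩, ?_⟩
    exact ⟨fun i => i.elim0, fun i => i.elim0, fun i => i.elim0, fun i => i.elim0,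
      fun i => i.elim0⟩

end Vale.Agent.P060
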